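import Vale.Agent.P243.Sharp

/-!
# P243: the cone inequality for a line through a convex set
-/

namespace Vale.Agent.P243

open MeasureTheory Set
open scoped ENNReal

noncomputable section

/-- The fibre of `K` over a point of the plane. -/
def fib (K : Set Q) (y : ℝ × ℝ) : Set ℝ := {t | (y, t) ∈ K}

/-- The parameters `λ` with `y = λ y₀ + (1-λ) w`, `w` in the shadow of `K`. -/
def params (K : Set Q) (y₀ y : ℝ × ℝ) : Set ℝ :=
  {r | r ∈ Icc (0:ℝ) 1 ∧ ∃ w ∈ Prod.fst '' K, y = r • y₀ + (1 - r) • w}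

lemma mem_comb {K : Set Q} (hK : Convex ℝ K) {y₁ y₂ : ℝ × ℝ} {t₁ t₂ r : ℝ} (h₁ : (y₁, t₁) ∈ K)
    (h₂ : (y₂, t₂) ∈ K) (h0 : 0 ≤ r) (h1 : r ≤ 1) :
    (r • y₁ + (1 - r) • y₂, r * t₁ + (1 - r) * t₂) ∈ K := by
  have := hK h₁ h₂ h0 (sub_nonneg.2 h1) (by ring)
  simpa [Prod.smul_mk] using this

lemma volume_fib_lintegral {K : Set Q} (hK : IsCompact K) :
    volume K = ∫⁻ y, volume (fib K y) := by
  rw [show (volume : Measure Q) = (volume : Measure (ℝ × ℝ)).prod (volume : Measure ℝ) from rfl,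
    Measure.prod_apply hK.measurableSet]
  rfl

lemma isCompact_fib {K : Set Q} (hK : IsCompact K) (y : ℝ × ℝ) : IsCompact (fib K y) := by
  refine (hK.image continuous_snd).of_isClosed_subset
    (hK.isClosed.preimage (by fun_prop : Continuous fun t : ℝ => (y, t))) ?_
  exact fun t ht => ⟨(y, t), ht, rfl⟩

lemma fib_eq_Icc {K : Set Q} (hK : IsCompact K) (hcv : Convex ℝ K) {y : ℝ × ℝ}
    (hy : (fib K y).Nonempty) :
    ∃ q p, q ≤ p ∧ fib K y = Icc q p := by
  have hconn : IsConnected (fib K y) := by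
    refine ⟨hy, (Convex.isPreconnected ?_)⟩
    intro a ha b hb r s hr hs hrs
    have h := mem_comb hcv ha hb hr (by linarith)
    have hy' : r • y + (1 - r) • y = y := by rw [← add_smul]; simp
    rw [hy'] at h
    obtain rfl : s = 1 - r := by linarith
    exact h
  have h := eq_Icc_of_connected_compact hconn (isCompact_fib hK y)
  exact ⟨sInf (fib K y), sSup (fib K y),
    csInf_le_csSup hy (isCompact_fib hK y).bddBelow (isCompact_fib hK y).bddAbove, h⟩

/-- For a segment over `y₀`, every fibre is at least the length of the segment times the parameter. -/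
lemma fib_ge {K : Set Q} (hcv : Convex ℝ K) {y₀ y : ℝ × ℝ} {q p : ℝ}
    (hq : (y₀, q) ∈ K) (hp : (y₀, p) ∈ K) {r : ℝ} (hr : r ∈ params K y₀ y) :
    ENNReal.ofReal (r * (p - q)) ≤ volume (fib K y) := by
  obtain ⟨⟨h0, h1⟩, w, ⟨⟨w', t⟩, hw, rfl⟩, rfl⟩ := hr
  have hsub : Icc (r * q + (1 - r) * t) (r * p + (1 - r) * t)
      ⊆ fib K (r • y₀ + (1 - r) • w') := by
    intro s hs
    have hcv' : Convex ℝ (fib K (r • y₀ + (1 - r) • w')) := by
      intro a ha b hb u v hu hv huv
      have h := mem_comb hcv ha hb hu (by linarith)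
      obtain rfl : v = 1 - u := by linarith
      rwa [← add_smul, add_sub_cancel, one_smul] at h
    exact hcv'.ordConnected.out (mem_comb hcv hq hw h0 h1) (mem_comb hcv hp hw h0 h1) hs
  refine le_trans (le_of_eq ?_) (measure_mono hsub)
  rw [Real.volume_Icc]; ring_nf

/-- The measure of the set of parameters integrates to one third of the area of the shadow. -/
lemma lintegral_params {K : Set Q} (hK : IsCompact K) (y₀ : ℝ × ℝ) :
    ∫⁻ y, volume (params K y₀ y) = ENNReal.ofReal (1 / 3) * volume (Prod.fst '' K) := by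
  set P := Prod.fst '' K with hP
  set Z : Set ((ℝ × ℝ) × ℝ) :=
    (fun z : ℝ × (ℝ × ℝ) => (z.1 • y₀ + (1 - z.1) • z.2, z.1)) '' (Icc (0:ℝ) 1 ×ˢ P) with hZ
  have hPc : IsCompact P := hK.image continuous_fst
  have hZc : IsCompact Z := (isCompact_Icc.prod hPc).image (by fun_prop)
  have h1 : ∀ y, params K y₀ y = Prod.mk y ⁻¹' Z := by
    intro y; ext r
    simp only [params, hZ, mem_preimage, mem_image, mem_ofPred_eq]
    constructor
    · rintro ⟨hr, w, hw, rfl⟩
      exact ⟨(r, w), ⟨hr, hw⟩, rfl⟩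
    · rintro ⟨⟨r', w⟩, ⟨hr, hw⟩, he⟩
      obtain ⟨he1, he2⟩ := Prod.mk.injEq .. ▸ he
      simp only at he1 he2
      subst he2
      exact ⟨hr, w, hw, he1.symm⟩
  simp only [h1]
  rw [← Measure.prod_apply hZc.measurableSet, Measure.prod_apply_symm hZc.measurableSet]
  have h2 : ∀ r, (fun y => (y, r)) ⁻¹' Z =
      if r ∈ Icc (0:ℝ) 1 then (fun y => r • y₀ + y) '' ((fun w : ℝ × ℝ => (1 - r) • w) '' P)
      else ∅ := by
    intro r
    split_ifs with hr
    · ext y
      simp only [hZ, mem_preimage, mem_image, mem_prod, exists_exists_and_eq_and]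
      constructor
      · rintro ⟨⟨r', w⟩, ⟨-, hw⟩, he⟩
        simp only [Prod.mk.injEq] at he
        obtain ⟨he1, rfl⟩ := he
        exact ⟨w, hw, he1⟩
      · rintro ⟨w, hw, rfl⟩
        exact ⟨(r, w), ⟨hr, hw⟩, rfl⟩
    · refine eq_empty_iff_forall_notMem.2 ?_
      rintro y ⟨⟨r', w⟩, ⟨hr', -⟩, he⟩
      simp only [Prod.mk.injEq] at he
      exact hr (he.2 ▸ hr')
  have h3 : ∀ r, volume ((fun y => (y, r)) ⁻¹' Z) =
      (Icc (0:ℝ) 1).indicator (fun r => ENNReal.ofReal ((1 - r) ^ 2)) r * volume P := by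
    intro r
    rw [h2]
    split_ifs with hr
    · rw [indicator_of_mem hr, image_add_left, measure_preimage_add, Set.image_smul,
        Measure.addHaar_smul]
      simp [abs_of_nonneg, sub_nonneg.2 hr.2]
    · simp [indicator_of_notMem hr]
  simp only [h3]
  rw [lintegral_mul_const _ ((by fun_prop : Measurable fun r : ℝ => ENNReal.ofReal ((1 - r) ^ 2)).indicator
    measurableSet_Icc), lintegral_indicator measurableSet_Icc,
    ← ofReal_integral_eq_lintegral_ofReal]
  · congr 2
    rw [integral_Icc_eq_integral_Ioc, ← intervalIntegral.integral_of_le zero_le_one,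
      intervalIntegral.integral_comp_sub_left (fun x => x ^ 2), integral_pow]
    norm_num
  · exact (by fun_prop : Continuous fun r : ℝ => (1 - r) ^ 2).continuousOn.integrableOn_Icc
  · exact Filter.Eventually.of_forall fun r => sq_nonneg _

/-- A segment of length `L` over `y₀` gives `3 vol K ≥ L * area (shadow)`, with a surplus that
controls the excess of the fibres over a given set. -/
lemma cone_surplus {K : Set Q} (hK : IsCompact K) (hcv : Convex ℝ K) {y₀ : ℝ × ℝ} {q p : ℝ}
    (hqp : q ≤ p) (hq : (y₀, q) ∈ K) (hp : (y₀, p) ∈ K) (D : Set (ℝ × ℝ)) (hD : MeasurableSet D)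
    (ε : ℝ≥0∞)
    (hε : ∀ y ∈ D, ENNReal.ofReal (p - q) * volume (params K y₀ y) + ε ≤ volume (fib K y)) :
    ENNReal.ofReal (p - q) * (ENNReal.ofReal (1 / 3) * volume (Prod.fst '' K)) + ε * volume D
      ≤ volume K := by
  rw [← lintegral_params hK y₀, volume_fib_lintegral hK,
    ← lintegral_const_mul' _ _ ENNReal.ofReal_ne_top, ← lintegral_indicator_const hD ε,
    ← lintegral_add_right _ (measurable_const.indicator hD)]
  refine lintegral_mono fun y => ?_
  by_cases hy : y ∈ D
  · rw [indicator_of_mem hy]; exact hε y hy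
  rw [indicator_of_notMem hy, add_zero]
  -- the parameters are bounded by the fibre length over the segment length
  rcases eq_or_ne (volume (fib K y)) ∞ with htop | htop
  · rw [htop]; exact le_top
  rcases hqp.eq_or_lt with h | h
  · simp [h]
  set a := (volume (fib K y)).toReal / (p - q) with ha
  have hsub : params K y₀ y ⊆ Icc 0 a := by
    intro r hr
    refine ⟨hr.1.1, ?_⟩
    have := fib_ge hcv hq hp hr
    rw [ha, le_div_iff₀ (sub_pos.2 h)]
    exact (ENNReal.ofReal_le_iff_le_toReal htop).1 this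
  refine (mul_le_mul' le_rfl (measure_mono hsub)).trans ?_
  rw [Real.volume_Icc, ← ENNReal.ofReal_mul (sub_nonneg.2 hqp), sub_zero, ha,
    mul_div_cancel₀ _ (sub_pos.2 h).ne', ENNReal.ofReal_toReal htop]

/-- The inequality of Rogers and Shephard for segments. -/
lemma seg_mul_shadow_le {K : Set Q} (hK : IsCompact K) (hcv : Convex ℝ K) {y₀ : ℝ × ℝ} {q p : ℝ}
    (hqp : q ≤ p) (hq : (y₀, q) ∈ K) (hp : (y₀, p) ∈ K) :
    (p - q) * volume.real (Prod.fst '' K) ≤ 3 * volume.real K := by
  have h := cone_surplus hK hcv hqp hq hp ∅ MeasurableSet.empty 0 (by simp)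
  have hA := (hK.image continuous_fst : IsCompact (Prod.fst '' K)).measure_lt_top (μ := volume)
  have hV := hK.measure_lt_top (μ := volume)
  have h2 := ENNReal.toReal_mono hV.ne h
  rw [zero_mul, add_zero, ENNReal.toReal_mul, ENNReal.toReal_mul, ENNReal.toReal_ofReal
    (sub_nonneg.2 hqp), ENNReal.toReal_ofReal (by norm_num)] at h2
  simp only [Measure.real] at *
  linarith

end

end Vale.Agent.P243
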