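import Vale.Agent.P243.Main

/-!
# P243: names used in the statement
-/

namespace Vale.Agent.P243

open MeasureTheory

noncomputable section

variable {V : Type} [NormedAddCommGroup V] [InnerProductSpace ℝ V]

/-- The plane through the origin orthogonal to `u`. -/
def plane (u : V) : Submodule ℝ V := (ℝ ∙ u)ᗮ

/-- Families of bases: for each index a set of vectors in the plane orthogonal to the axis. -/
def Bases {m : ℕ} (u : Fin m → V) : Type := ∀ i, Set ↥(plane (u i))

variable [FiniteDimensional ℝ V] [MeasurableSpace V] [BorelSpace V]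

/-- The orthogonal projection onto the plane orthogonal to `u`. -/
def projPlane (u : V) (x : V) : ↥(plane u) := (plane u).orthogonalProjectionOnto x

/-- The Lebesgue measure of the Euclidean plane orthogonal to `u`. -/
def planeArea (u : V) (S : Set ↥(plane u)) : ENNReal := volume S

/-- The directionwise relative area of the cylinders with axes `u i` and bases `B i` with respect
to `K`. -/
def relativeArea (K : Set V) {m : ℕ} (u : Fin m → V) (B : Bases u) : ENNReal :=
  ∑ i, planeArea (u i) (B i) / planeArea (u i) (projPlane (u i) '' K)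

/-- `u` and `B` describe a covering of `K` by finitely many cylinders with measurable bases. -/
def IsCylinderCover (K : Set V) {m : ℕ} (u : Fin m → V) (B : Bases u) : Prop :=
  (∀ i, ‖u i‖ = 1) ∧ (∀ i, MeasurableSet (B i)) ∧ ∀ x ∈ K, ∃ i, projPlane (u i) x ∈ B i

theorem relativeArea_bound : ∃ ε : ℝ, 0 < ε ∧ ∀ (K : Set E3), IsCompact K → Convex ℝ K →
    (interior K).Nonempty → ∀ (m : ℕ) (u : Fin m → E3) (B : Bases u),
      IsCylinderCover K u B → ENNReal.ofReal (1 / 3 + ε) ≤ relativeArea K u B := by
  obtain ⟨ε, hε, h⟩ := cylinder_bound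
  exact ⟨ε, hε, fun K hK hcv hint m u B hc => h K hK hcv hint m u B hc.1 hc.2.1
    fun x hx => Set.mem_iUnion.2 (hc.2.2 x hx)⟩

end

end Vale.Agent.P243
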