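import Vale.Agent.P243.Cone

/-!
# P243: a line of almost maximal length ends near sharp points
-/

namespace Vale.Agent.P243

open MeasureTheory Set
open scoped ENNReal

noncomputable section

/-- In a plane section, a near bound on one fibre gives a near supporting line. -/
lemma section_bound {K : Set Q} (hcv : Convex ℝ K) {y₀ e : ℝ × ℝ} {p tw sz ε C sg : ℝ}
    (hp : (y₀, p) ∈ K) (hw : (y₀ + e, tw) ∈ K) (hsz0 : 0 < sz) (hsz1 : sz < 1) (hε : 0 ≤ ε)
    (hC1 : 1 / (1 - sz) ≤ C)
    (hz : ∀ t, (y₀ + sz • e, t) ∈ K → sg * (t - p) - sz * (sg * (tw - p)) ≤ ε)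
    {s t : ℝ} (hst : (y₀ + s • e, t) ∈ K)
    (hC2 : s / sz ≤ C) (hneg : ∀ u, (y₀, u) ∈ K → sg * (u - p) ≤ 0) :
    sg * (t - p) - s * (sg * (tw - p)) ≤ ε * C := by
  have hC0 : 0 ≤ C := le_trans (by have := sub_pos.2 hsz1; positivity) hC1
  rcases lt_trichotomy s sz with h | h | h
  · rcases le_or_gt 0 s with h0 | h0
    · -- between: combine with the far point
      set r := (1 - sz) / (1 - s) with hr
      have hs1 : 0 < 1 - s := by linarith
      have hr0 : 0 ≤ r := by have := sub_pos.2 hsz1; positivity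
      have hr1 : r ≤ 1 := (div_le_one hs1).2 (by linarith)
      have hm := mem_comb hcv hst hw hr0 hr1
      have hy : r • (y₀ + s • e) + (1 - r) • (y₀ + e) = y₀ + sz • e := by
        rw [smul_add, smul_add, smul_smul, add_add_add_comm, ← add_smul, ← add_smul,
          add_sub_cancel, one_smul]
        congr 2
        rw [hr]; field_simp; ring
      rw [hy] at hm
      have hb := hz _ hm
      have hkey : r * (sg * (t - p) - s * (sg * (tw - p))) ≤ ε := by
        refine le_trans (le_of_eq ?_) hb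
        have hrs : r * (1 - s) = 1 - sz := div_mul_cancel₀ _ hs1.ne'
        linear_combination (sg * (tw - p)) * hrs
      have hrC : 1 ≤ r * C := by
        have h2 : 1 / (1 - sz) * r = 1 / (1 - s) := by
          rw [hr]; field_simp [(sub_pos.2 hsz1).ne']
        have h3 : (1:ℝ) ≤ 1 / (1 - s) := by rw [le_div_iff₀ hs1]; linarith
        nlinarith [mul_le_mul_of_nonneg_right hC1 hr0]
      by_contra hcon
      have : r * (ε * C) ≤ r * (sg * (t - p) - s * (sg * (tw - p))) :=
        mul_le_mul_of_nonneg_left (not_le.1 hcon).le hr0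
      rcases eq_or_lt_of_le hr0 with h' | h'
      · rw [← h', zero_mul] at hrC; linarith
      · have := mul_lt_mul_of_pos_left (not_le.1 hcon) h'
        nlinarith
    · -- on the far side: combine with the far point down to the line itself
      set r := 1 / (1 - s) with hr
      have hs1 : 0 < 1 - s := by linarith
      have hr0 : 0 < r := by positivity
      have hr1 : r ≤ 1 := (div_le_one hs1).2 (by linarith)
      have hm := mem_comb hcv hst hw hr0.le hr1
      have hy : r • (y₀ + s • e) + (1 - r) • (y₀ + e) = y₀ := by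
        rw [smul_add, smul_add, smul_smul, add_add_add_comm, ← add_smul, ← add_smul,
          add_sub_cancel, one_smul, show r * s + (1 - r) = 0 by rw [hr]; field_simp; ring,
          zero_smul, add_zero]
      rw [hy] at hm
      have hb := hneg _ hm
      have hrs : r * (1 - s) = 1 := div_mul_cancel₀ _ hs1.ne'
      have hkey : r * (sg * (t - p) - s * (sg * (tw - p))) ≤ 0 := by
        refine le_trans (le_of_eq ?_) hb
        linear_combination (sg * (tw - p)) * hrs
      nlinarith [mul_nonneg hε hC0]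
  · subst h
    have := hz t hst
    have h1 : 1 ≤ C := le_trans (le_of_eq (div_self hsz0.ne').symm) hC2
    nlinarith
  · -- beyond: combine with the point over `y₀`
    set r := sz / s with hr
    have hs0 : 0 < s := hsz0.trans h
    have hr0 : 0 < r := by positivity
    have hr1 : r ≤ 1 := (div_le_one hs0).2 h.le
    have hm := mem_comb hcv hst hp hr0.le hr1
    have hy : r • (y₀ + s • e) + (1 - r) • y₀ = y₀ + sz • e := by
      rw [smul_add, smul_smul, show r * s = sz from div_mul_cancel₀ _ hs0.ne']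
      rw [sub_smul, one_smul]; abel
    rw [hy] at hm
    have hb := hz _ hm
    have hrs : r * s = sz := div_mul_cancel₀ _ hs0.ne'
    have hkey : r * (sg * (t - p) - s * (sg * (tw - p))) ≤ ε := by
      refine le_trans (le_of_eq ?_) hb
      linear_combination (-(sg * (tw - p))) * hrs
    have hrC : 1 ≤ r * C := by
      have h2 : r * (s / sz) = 1 := by rw [hr]; field_simp
      nlinarith [mul_le_mul_of_nonneg_left hC2 hr0.le]
    by_contra hcon
    have := mul_lt_mul_of_pos_left (not_le.1 hcon) hr0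
    nlinarith

/-- A near supporting line of a plane section extends to a near supporting plane. -/
lemma extend {K : Set Q} (hK : IsCompact K) (hcv : Convex ℝ K) {y₀ e z : ℝ × ℝ}
    {p β sz d η sg B : ℝ} (hsg : sg = 1 ∨ sg = -1) (hη : 0 < η)
    (hz : z = y₀ + sz • e)
    (hin : ∀ σ₁ σ₂ σ₃ : ℝ, |σ₁| ≤ 1 / 4 → |σ₂| ≤ 1 / 4 → |σ₃| ≤ 1 / 4 →
      ((z.1 + σ₁, z.2 + σ₂), σ₃) ∈ K)
    (hsec : ∀ s t, (y₀ + s • e, t) ∈ K → sg * (t - p) - s * β ≤ d)
    (hB : |p + sg * (sz * β + d + η)| ≤ B) (hB1 : 1 ≤ 4 * B) :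
    ∃ a : Q, a ∈ box (4 * B) ∧ a.2 = sg ∧ a.1.1 * e.1 + a.1.2 * e.2 = -β ∧
      ∀ y ∈ K, dot a (y - (y₀, p)) ≤ d + η := by
  have hsgsq : sg * sg = 1 := by rcases hsg with h | h <;> rw [h] <;> norm_num
  set base : Q := (y₀, p + sg * (d + η)) with hbase
  set dir : Q := (e, sg * β) with hdir
  set ℓ : Set Q := (fun v => base + v) '' (Submodule.span ℝ {dir} : Set Q) with hl
  have hcl : IsClosed ℓ :=
    (Homeomorph.addLeft base).isClosedMap _ (Submodule.span ℝ {dir}).closed_of_finiteDimensional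
  have hlcv : Convex ℝ ℓ := ((Submodule.span ℝ {dir}).convex).translate base
  have hpt : ∀ s : ℝ, (y₀ + s • e, p + sg * (s * β + d + η)) ∈ ℓ := by
    intro s
    refine ⟨s • dir, Submodule.smul_mem _ _ (Submodule.mem_span_singleton_self _), ?_⟩
    simp only [hbase, hdir, Prod.smul_mk, Prod.mk_add_mk, smul_eq_mul]
    ext <;> simp <;> ring
  have hdisj : Disjoint K ℓ := by
    rw [Set.disjoint_left]
    rintro x hxK ⟨v, hv, rfl⟩
    obtain ⟨s, rfl⟩ := Submodule.mem_span_singleton.1 hv
    have h := hsec s (p + sg * (s * β + d + η)) (by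
      convert hxK using 1
      simp only [hbase, hdir, Prod.smul_mk, Prod.mk_add_mk, smul_eq_mul]
      ext <;> simp <;> ring)
    have h2 : sg * (p + sg * (s * β + d + η) - p) = s * β + d + η := by
      rw [add_sub_cancel_left, ← mul_assoc, hsgsq, one_mul]
    rw [h2] at h
    linarith
  obtain ⟨f, u, v, hfK, huv, hfl⟩ := geometric_hahn_banach_compact_closed hcv hK hlcv hcl hdisj
  set γ := f (((0:ℝ), 0), 1) with hγ
  set α₁ := f (((1:ℝ), 0), 0) with hα₁
  set α₂ := f (((0:ℝ), 1), 0) with hα₂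
  have hf : ∀ x : Q, f x = α₁ * x.1.1 + α₂ * x.1.2 + γ * x.2 := by
    intro x
    have : x = x.1.1 • (((1:ℝ), 0), (0:ℝ)) + x.1.2 • (((0:ℝ), 1), (0:ℝ))
        + x.2 • (((0:ℝ), 0), (1:ℝ)) := by ext <;> simp
    conv_lhs => rw [this]
    simp only [map_add, map_smul, smul_eq_mul, hγ, hα₁, hα₂]
    ring
  have hfdir : f dir = 0 := by
    by_contra hne
    have h := hfl (base + ((v - 1 - f base) / f dir) • dir)
      ⟨_, Submodule.smul_mem _ _ (Submodule.mem_span_singleton_self _), rfl⟩
    rw [map_add, map_smul, smul_eq_mul, div_mul_cancel₀ _ hne] at h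
    linarith
  set zl := p + sg * (sz * β + d + η) with hzl
  have hzl' : f (z, zl) = f base := by
    have h1 : ((z, zl) : Q) = base + sz • dir := by
      simp only [hbase, hdir, hzl, hz, Prod.smul_mk, Prod.mk_add_mk, smul_eq_mul]
      ext <;> simp <;> ring
    rw [h1, map_add, map_smul, hfdir, smul_zero, add_zero]
  have hbaseK : ∀ x ∈ K, f x < f base := fun x hx => by
    linarith [hfK x hx, hfl base ⟨0, Submodule.zero_mem _, add_zero _⟩]
  -- the corners of the small box around `(z, 0)`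
  have hsum : 1 / 4 * |α₁| + 1 / 4 * |α₂| + 1 / 4 * |γ| < γ * zl := by
    have habs : ∀ a : ℝ, ∃ σ : ℝ, |σ| ≤ 1 / 4 ∧ a * σ = 1 / 4 * |a| := fun a => by
      rcases le_or_gt 0 a with h | h
      · exact ⟨1 / 4, by norm_num, by rw [abs_of_nonneg h]; ring⟩
      · exact ⟨-(1 / 4), by norm_num, by rw [abs_of_neg h]; ring⟩
    obtain ⟨σ₁, h1, k1⟩ := habs α₁
    obtain ⟨σ₂, h2, k2⟩ := habs α₂
    obtain ⟨σ₃, h3, k3⟩ := habs γ
    have := hbaseK _ (hin σ₁ σ₂ σ₃ h1 h2 h3)
    rw [← hzl', hf, hf] at this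
    simp only at this
    nlinarith
  have hγ0 : γ ≠ 0 := fun h => by
    rw [h] at hsum; linarith [abs_nonneg α₁, abs_nonneg α₂, abs_zero (α := ℝ)]
  -- the sign of the last coefficient
  have hz4 : ((z, sg * (1 / 4)) : Q) ∈ K := by
    have := hin 0 0 (sg * (1 / 4)) (by norm_num) (by norm_num)
      (by rcases hsg with h | h <;> rw [h] <;> norm_num)
    simpa using this
  have hsgzl : 1 / 4 < sg * zl := by
    have h := hsec sz (sg * (1 / 4)) (hz ▸ hz4)
    have h2 : sg * zl = sg * p + (sz * β + d + η) := by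
      rw [hzl, mul_add, ← mul_assoc, hsgsq, one_mul]
    rw [mul_sub, ← mul_assoc, hsgsq, one_mul] at h
    linarith
  have hpos : 0 < γ * sg := by
    have h1 : 0 < γ * zl := by linarith [abs_nonneg α₁, abs_nonneg α₂, abs_nonneg γ]
    have h2 : (γ * sg) * (sg * zl) = γ * zl := by
      rw [show (γ * sg) * (sg * zl) = γ * (sg * sg) * zl by ring, hsgsq, mul_one]
    by_contra h
    nlinarith
  set c := γ * sg with hcdef
  refine ⟨((α₁ / c, α₂ / c), sg), ?_, rfl, ?_, ?_⟩
  · have hγabs : |γ| = c := by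
      rw [← abs_of_pos hpos, hcdef, abs_mul]
      rcases hsg with h | h <;> rw [h] <;> norm_num
    have hbd : γ * zl ≤ c * B := by
      refine (le_abs_self _).trans ?_
      rw [abs_mul, hγabs]
      exact mul_le_mul_of_nonneg_left hB hpos.le
    rw [mem_box]
    refine ⟨?_, ?_, ?_⟩
    · rw [abs_div, abs_of_pos hpos, div_le_iff₀ hpos]
      linarith [abs_nonneg α₂, abs_nonneg γ]
    · rw [abs_div, abs_of_pos hpos, div_le_iff₀ hpos]
      linarith [abs_nonneg α₁, abs_nonneg γ]
    · rcases hsg with h | h <;> rw [h] <;> norm_num <;> linarith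
  · rw [hf, hdir] at hfdir
    simp only at hfdir
    field_simp
    linear_combination hfdir
  · intro y hy
    have h := hbaseK y hy
    rw [hf, hf] at h
    simp only [hbase] at h
    simp only [dot, Prod.fst_sub, Prod.snd_sub]
    have h2 : sg * (y.2 - p) = γ * (y.2 - p) / c := by
      rw [eq_div_iff hpos.ne', hcdef]
      linear_combination (γ * (y.2 - p)) * hsgsq
    rw [h2, div_mul_eq_mul_div, div_mul_eq_mul_div, ← add_div, ← add_div, div_le_iff₀ hpos, hcdef]
    nlinarith

lemma gram_ge {a b : Q} {e : ℝ × ℝ} {sg κ R : ℝ} (hsg : sg * sg = 1) (ha : a.2 = sg) (hb : b.2 = sg)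
    (hκ : |(a.1.1 * e.1 + a.1.2 * e.2) - (b.1.1 * e.1 + b.1.2 * e.2)| = κ)
    (hR : 0 < R) (he : e.1 ^ 2 + e.2 ^ 2 ≤ R ^ 2) : (κ / R) ^ 2 ≤ gram (a, b) := by
  have h1 : minor (rot a, rot b) ^ 2 + minor (rot (rot a), rot (rot b)) ^ 2
      = (a.1.2 - b.1.2) ^ 2 + (a.1.1 - b.1.1) ^ 2 := by
    simp only [minor, rot, ha, hb]
    linear_combination ((a.1.2 - b.1.2) ^ 2 + (a.1.1 - b.1.1) ^ 2) * hsg
  have h2 : κ ^ 2 ≤ ((a.1.1 - b.1.1) ^ 2 + (a.1.2 - b.1.2) ^ 2) * R ^ 2 := by
    rw [← hκ, sq_abs]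
    refine le_trans ?_ (mul_le_mul_of_nonneg_left he (by positivity))
    nlinarith [sq_nonneg ((a.1.1 - b.1.1) * e.2 - (a.1.2 - b.1.2) * e.1)]
  rw [gram_eq, add_assoc, h1, div_pow, div_le_iff₀ (by positivity)]
  nlinarith [mul_nonneg (sq_nonneg (minor (a, b))) (sq_nonneg R)]

end

end Vale.Agent.P243
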