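import Vale.Agent.P243.Transfer

/-!
# P243: a covering bound strictly better than one third
-/

namespace Vale.Agent.P243

open MeasureTheory Set Metric Module
open scoped ENNReal RealInnerProductSpace

noncomputable section

lemma isAddHaar_plane : (volume : Measure (ℝ × ℝ)).IsAddHaarMeasure :=
  inferInstanceAs ((volume : Measure ℝ).prod (volume : Measure ℝ)).IsAddHaarMeasure

lemma isAddHaar_Q : (volume : Measure Q).IsAddHaarMeasure := by
  haveI := isAddHaar_plane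
  exact inferInstanceAs ((volume : Measure (ℝ × ℝ)).prod (volume : Measure ℝ)).IsAddHaarMeasure

/-- The standard coordinates. -/
def coord0 : E3 ≃L[ℝ] Q := coordEquiv (EuclideanSpace.basisFun (Fin 3) ℝ)

lemma abs_le_of_dot_le {a : Q} {M : ℝ} (hM : 0 ≤ M) (h : dot a a ≤ M ^ 2) : a ∈ box M := by
  simp only [dot] at h
  rw [mem_box]
  refine ⟨abs_le_of_sq_le_sq ?_ hM, abs_le_of_sq_le_sq ?_ hM, abs_le_of_sq_le_sq ?_ hM⟩ <;>
    nlinarith [sq_nonneg a.1.1, sq_nonneg a.1.2, sq_nonneg a.2]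

lemma dot_le_of_mem_box {a : Q} {M : ℝ} (h : a ∈ box M) : dot a a ≤ 3 * M ^ 2 := by
  rw [mem_box, abs_le, abs_le, abs_le] at h
  simp only [dot]
  linarith [sq_le_sq' h.1.1 h.1.2, sq_le_sq' h.2.1.1 h.2.1.2, sq_le_sq' h.2.2.1 h.2.2.2,
    sq a.1.1, sq a.1.2, sq a.2]

lemma mem_Sh_coord0 {b : OrthonormalBasis (Fin 3) ℝ E3} {K : Set E3} {M d c : ℝ} (hM : 0 ≤ M)
    {x : E3} (h : coordEquiv b x ∈ Sh (coordEquiv b '' K) M d {p | c ^ 2 ≤ gram p}) :
    coord0 x ∈ Sh (coord0 '' K) (2 * M) d {p | c ^ 2 ≤ gram p} := by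
  obtain ⟨hx, a, a', ha, ha', hg, hy⟩ := h
  obtain ⟨y₀, hy₀, hxy⟩ := hx
  have hxK : x ∈ K := (coordEquiv b).injective hxy ▸ hy₀
  set ι : Q → Q := fun a => coord0 ((coordEquiv b).symm a) with hι
  have hdot : ∀ p q, dot (ι p) (ι q) = dot p q := by
    intro p q
    conv_rhs => rw [← (coordEquiv b).apply_symm_apply p, ← (coordEquiv b).apply_symm_apply q]
    simp only [hι, coord0, coordEquiv_apply, dot_coordE]
  refine ⟨mem_image_of_mem _ hxK, ι a, ι a', ?_, ?_, ?_, ?_⟩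
  · exact abs_le_of_dot_le (by positivity)
      (by rw [hdot]; linarith [dot_le_of_mem_box ha, sq_nonneg M, mul_pow 2 M 2])
  · exact abs_le_of_dot_le (by positivity)
      (by rw [hdot]; linarith [dot_le_of_mem_box ha', sq_nonneg M, mul_pow 2 M 2])
  · simpa [gram, hdot] using hg
  · rintro _ ⟨y, hyK, rfl⟩
    have h := hy _ (mem_image_of_mem _ hyK)
    have : coord0 y - coord0 x = ι (coordEquiv b y - coordEquiv b x) := by
      simp [hι]
    rw [this, hdot, hdot]
    exact h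

/-- One cylinder cannot contain more than its share of the body without the sharp points. -/
lemma cylinder_le {K : Set E3} (hK : IsCompact K) (hcv : Convex ℝ K)
    (hin : ∀ x : E3, ‖x‖ ≤ 1 → x ∈ K) (hout : K ⊆ closedBall 0 50)
    {δ₀ M C c : ℝ} (hM : 0 ≤ M)
    (hvert : ∀ K : Set Q, IsCompact K → Convex ℝ K → (∀ x, dot x x ≤ 1 → x ∈ K) → K ⊆ box 50 →
      ∀ δ, 0 < δ → δ ≤ δ₀ → ∀ y₀ : ℝ × ℝ,
        volume (fib K y₀ \ fib (Sh K M (C * δ) {x | c ^ 2 ≤ gram x}) y₀) *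
            volume (Prod.fst '' K) ≤ ENNReal.ofReal (3 * (1 - δ)) * volume K)
    {δ : ℝ} (hδ : 0 < δ) (hδ₀ : δ ≤ δ₀) {u : E3} (hu : ‖u‖ = 1) {B : Set ↥((ℝ ∙ u)ᗮ)}
    (hB : MeasurableSet B) :
    volume ((K \ coord0 ⁻¹' Sh (coord0 '' K) (2 * M) (C * δ) {p | c ^ 2 ≤ gram p}) ∩
        (ℝ ∙ u)ᗮ.orthogonalProjectionOnto ⁻¹' B)
      ≤ ENNReal.ofReal (3 * (1 - δ)) * volume K * (volume B / volume (shadow u K)) := by
  obtain ⟨b, ψ, hψ⟩ := exists_frame hu
  set Φ := coordEquiv b with hΦ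
  haveI := isAddHaar_Q
  haveI := isAddHaar_plane
  obtain ⟨cE, hcE0, hcEt, hcE⟩ := exists_scale (volume : Measure E3) (volume : Measure Q) Φ
  obtain ⟨cP, hcP0, hcPt, hcP⟩ :=
    exists_scale (volume : Measure ↥((ℝ ∙ u)ᗮ)) (volume : Measure (ℝ × ℝ)) ψ
  set K' := Φ '' K with hK'
  have hK'c : IsCompact K' := hK.image Φ.continuous
  have hK'cv : Convex ℝ K' := hcv.linear_image Φ.toLinearEquiv.toLinearMap
  have hnorm : ∀ x, dot (Φ x) (Φ x) = ‖x‖ ^ 2 := fun x => by
    rw [hΦ, coordEquiv_apply, dot_coordE, real_inner_self_eq_norm_sq]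
  have hball : ∀ z, dot z z ≤ 1 → z ∈ K' := fun z hz => by
    refine ⟨Φ.symm z, hin _ ?_, Φ.apply_symm_apply z⟩
    rw [← Φ.apply_symm_apply z, hnorm] at hz
    nlinarith [norm_nonneg (Φ.symm z)]
  have hK'box : K' ⊆ box 50 := by
    rintro _ ⟨x, hx, rfl⟩
    refine abs_le_of_dot_le (by norm_num) ?_
    rw [hnorm]
    exact pow_le_pow_left₀ (norm_nonneg _) (mem_closedBall_zero_iff.1 (hout hx)) 2
  have hshadow : Prod.fst '' K' = ψ '' shadow u K := by
    rw [hK', shadow, image_image, image_image]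
    exact image_congr fun x _ => by rw [hψ, hΦ, coordEquiv_apply]
  have hshc : IsCompact (shadow u K) :=
    hK.image ((ℝ ∙ u)ᗮ.orthogonalProjectionOnto).continuous
  set W' := Sh K' M (C * δ) {p | c ^ 2 ≤ gram p} with hW'
  have hW'c : IsCompact W' := isCompact_Sh hK'c _ _ (isClosed_gram _)
  set B' := ψ '' B with hB'
  have hB'm : MeasurableSet B' := by
    rw [hB', show ⇑ψ = ⇑ψ.toHomeomorph.toMeasurableEquiv from rfl]
    exact (ψ.toHomeomorph.toMeasurableEquiv).measurableSet_image.2 hB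
  set S : Set Q := (K' \ W') ∩ Prod.fst ⁻¹' B' with hS
  have hSm : MeasurableSet S :=
    (hK'c.measurableSet.diff hW'c.measurableSet).inter (measurable_fst hB'm)
  have hsub : Φ '' ((K \ coord0 ⁻¹' Sh (coord0 '' K) (2 * M) (C * δ) {p | c ^ 2 ≤ gram p}) ∩
      (ℝ ∙ u)ᗮ.orthogonalProjectionOnto ⁻¹' B) ⊆ S := by
    rintro _ ⟨x, ⟨⟨hxK, hxW⟩, hxB⟩, rfl⟩
    refine ⟨⟨mem_image_of_mem _ hxK, fun h => hxW (mem_Sh_coord0 hM h)⟩, ?_⟩
    refine ⟨_, hxB, ?_⟩
    rw [hψ, hΦ, coordEquiv_apply]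
  have hA'0 : volume (Prod.fst '' K') ≠ 0 := by
    refine ne_of_gt (lt_of_lt_of_le ?_ (measure_mono (s := Icc (-(1 / 2) : ℝ) (1 / 2) ×ˢ
      Icc (-(1 / 2) : ℝ) (1 / 2)) ?_))
    · rw [Measure.volume_eq_prod, Measure.prod_prod, Real.volume_Icc]
      norm_num
    · rintro ⟨a, b⟩ ⟨⟨ha, ha'⟩, hb, hb'⟩
      refine ⟨((a, b), 0), hball _ ?_, rfl⟩
      simp only [dot]
      nlinarith
  have hA't : volume (Prod.fst '' K') ≠ ∞ := (hK'c.image continuous_fst).measure_lt_top.ne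
  have hfibS : ∀ y, volume (fib S y) * volume (Prod.fst '' K') ≤
      B'.indicator (fun _ => ENNReal.ofReal (3 * (1 - δ)) * volume K') y := by
    intro y
    by_cases hy : y ∈ B'
    · rw [indicator_of_mem hy]
      refine (mul_le_mul' (measure_mono ?_) le_rfl).trans
        (hvert K' hK'c hK'cv hball hK'box δ hδ hδ₀ y)
      exact fun t ht => ⟨ht.1.1, ht.1.2⟩
    · have : fib S y = ∅ := eq_empty_iff_forall_notMem.2 fun t ht => hy ht.2
      simp [this]
  have hint : volume S * volume (Prod.fst '' K') ≤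
      ENNReal.ofReal (3 * (1 - δ)) * volume K' * volume B' := by
    rw [show (volume : Measure Q) = (volume : Measure (ℝ × ℝ)).prod (volume : Measure ℝ) from rfl,
      Measure.prod_apply hSm, ← lintegral_mul_const' _ _ hA't]
    refine (lintegral_mono hfibS).trans (le_of_eq ?_)
    rw [lintegral_indicator_const hB'm]
    rfl
  rw [hshadow] at hint hA't hA'0
  have h := (mul_le_mul' (measure_mono hsub) le_rfl).trans hint
  rw [hB', hK', hcE, hcE, hcP, hcP] at h
  rw [hcP] at hA'0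
  have hA0 : volume (shadow u K) ≠ 0 := (mul_ne_zero_iff.1 hA'0).2
  rw [← mul_div_assoc, ENNReal.le_div_iff_mul_le (Or.inl hA0) (Or.inl hshc.measure_lt_top.ne)]
  refine (ENNReal.mul_le_mul_iff_right (mul_ne_zero hcE0 hcP0) (ENNReal.mul_ne_top hcEt hcPt)).1 ?_
  calc cE * cP * (volume _ * volume (shadow u K))
      = cE * volume _ * (cP * volume (shadow u K)) := by ring
    _ ≤ ENNReal.ofReal (3 * (1 - δ)) * (cE * volume K) * (cP * volume B) := h
    _ = _ := by ring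

/-- The bound for a body between the unit ball and the ball of radius fifty. -/
lemma normal_bound : ∃ ε : ℝ, 0 < ε ∧ ∀ (K : Set E3), IsCompact K → Convex ℝ K →
    (∀ x : E3, ‖x‖ ≤ 1 → x ∈ K) → K ⊆ closedBall 0 50 →
    ∀ (m : ℕ) (u : Fin m → E3) (B : ∀ i, Set ↥((ℝ ∙ u i)ᗮ)), (∀ i, ‖u i‖ = 1) →
      (∀ i, MeasurableSet (B i)) →
      K ⊆ ⋃ i, (ℝ ∙ u i)ᗮ.orthogonalProjectionOnto ⁻¹' B i →
      ENNReal.ofReal (1 / 3 + ε) ≤ ∑ i, volume (B i) / volume (shadow (u i) K) := by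
  obtain ⟨δ₀, hδ₀, hδ₀4, M, C, c, hM, hC, hc, hvert⟩ := vertical 50 (by norm_num)
  obtain ⟨C', hC', hsharp⟩ := volume_Sh_gram 50 (2 * M) c (by norm_num) (by positivity) hc
  set δ := min δ₀ (1 / (2 * (C' * C ^ 2) + 1)) with hδdef
  have hδ : 0 < δ := lt_min hδ₀ (by positivity)
  have hδle : δ ≤ δ₀ := min_le_left _ _
  refine ⟨δ / 6, by positivity, fun K hK hcv hin hout m u B hu hB hcov => ?_⟩
  haveI := isAddHaar_Q
  obtain ⟨c₀, hc₀0, hc₀t, hc₀⟩ := exists_scale (volume : Measure E3) (volume : Measure Q) coord0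
  set K₀ := coord0 '' K with hK₀
  have hK₀c : IsCompact K₀ := hK.image coord0.continuous
  have hnorm : ∀ x, dot (coord0 x) (coord0 x) = ‖x‖ ^ 2 := fun x => by
    rw [coord0, coordEquiv_apply, dot_coordE, real_inner_self_eq_norm_sq]
  have hK₀box : K₀ ⊆ box 50 := by
    rintro _ ⟨x, hx, rfl⟩
    refine abs_le_of_dot_le (by norm_num) ?_
    rw [hnorm]
    exact pow_le_pow_left₀ (norm_nonneg _) (mem_closedBall_zero_iff.1 (hout hx)) 2
  have hV1 : 1 ≤ volume K₀ := by
    refine le_trans ?_ (measure_mono (s := box (1 / 2)) ?_)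
    · rw [box, Measure.volume_eq_prod, Measure.prod_prod, Measure.volume_eq_prod,
        Measure.prod_prod, Real.volume_Icc]
      norm_num
    · intro z hz
      refine ⟨coord0.symm z, hin _ ?_, coord0.apply_symm_apply z⟩
      have h := dot_le_of_mem_box hz
      rw [← coord0.apply_symm_apply z, hnorm] at h
      nlinarith [norm_nonneg (coord0.symm z)]
  set W := coord0 ⁻¹' Sh K₀ (2 * M) (C * δ) {p | c ^ 2 ≤ gram p} with hW
  set η := C' * C ^ 2 * δ ^ 2 with hη
  have hWvol : volume W ≤ ENNReal.ofReal η * volume K := by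
    have h := hsharp K₀ (C * δ) hK₀c hK₀box (by positivity)
    rw [← coord0.toEquiv.image_preimage (Sh K₀ (2 * M) (C * δ) {p | c ^ 2 ≤ gram p})] at h
    change volume (coord0 '' W) ≤ _ at h
    rw [show C' * (C * δ) ^ 2 = η by rw [hη]; ring] at h
    rw [hK₀, hc₀] at hV1
    rw [hc₀] at h
    refine (ENNReal.mul_le_mul_iff_right hc₀0 hc₀t).1 (h.trans ?_)
    calc ENNReal.ofReal η = ENNReal.ofReal η * 1 := (mul_one _).symm
      _ ≤ ENNReal.ofReal η * (c₀ * volume K) := mul_le_mul' le_rfl hV1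
      _ = c₀ * (ENNReal.ofReal η * volume K) := by ring
  have hsub : K ⊆ W ∪ ⋃ i ∈ (Finset.univ : Finset (Fin m)),
      ((K \ W) ∩ (ℝ ∙ u i)ᗮ.orthogonalProjectionOnto ⁻¹' B i) := by
    intro x hx
    by_cases hxW : x ∈ W
    · exact Or.inl hxW
    · obtain ⟨i, hi⟩ := mem_iUnion.1 (hcov hx)
      exact Or.inr (mem_iUnion₂.2 ⟨i, Finset.mem_univ i, ⟨hx, hxW⟩, hi⟩)
  set S := ∑ i, volume (B i) / volume (shadow (u i) K) with hS
  have hmain : volume K ≤ ENNReal.ofReal η * volume K +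
      ENNReal.ofReal (3 * (1 - δ)) * volume K * S := by
    refine (measure_mono hsub).trans ((measure_union_le _ _).trans (add_le_add hWvol ?_))
    refine (measure_biUnion_finset_le _ _).trans ?_
    rw [hS, Finset.mul_sum]
    exact Finset.sum_le_sum fun i _ =>
      cylinder_le hK hcv hin hout hM.le hvert hδ hδle (hu i) (hB i)
  rcases eq_or_ne S ∞ with hStop | hStop
  · rw [hStop]; exact le_top
  have hKt : volume K ≠ ∞ := hK.measure_lt_top.ne
  have hKpos : 0 < (volume K).toReal := by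
    refine ENNReal.toReal_pos ?_ hKt
    intro h0
    rw [hK₀, hc₀, h0, mul_zero] at hV1
    exact absurd hV1 (by simp)
  have h2 := ENNReal.toReal_mono (ENNReal.add_ne_top.2 ⟨ENNReal.mul_ne_top ENNReal.ofReal_ne_top hKt,
    ENNReal.mul_ne_top (ENNReal.mul_ne_top ENNReal.ofReal_ne_top hKt) hStop⟩) hmain
  have hη0 : 0 ≤ η := by positivity
  have hδ4 : δ ≤ 1 / 4 := hδle.trans hδ₀4
  rw [ENNReal.toReal_add (ENNReal.mul_ne_top ENNReal.ofReal_ne_top hKt)
    (ENNReal.mul_ne_top (ENNReal.mul_ne_top ENNReal.ofReal_ne_top hKt) hStop), ENNReal.toReal_mul,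
    ENNReal.toReal_mul, ENNReal.toReal_mul, ENNReal.toReal_ofReal hη0,
    ENNReal.toReal_ofReal (by linarith)] at h2
  have h3 : 1 - η ≤ 3 * (1 - δ) * S.toReal := by
    refine le_of_mul_le_mul_right ?_ hKpos
    linarith
  have h4 : η ≤ δ / 2 := by
    have h : δ ≤ 1 / (2 * (C' * C ^ 2) + 1) := min_le_right _ _
    rw [le_div_iff₀ (by positivity)] at h
    rw [hη]
    nlinarith [mul_le_mul_of_nonneg_left h hδ.le]
  refine ENNReal.ofReal_le_of_le_toReal ?_
  have h5 : 3 * (1 - δ) * (1 / 3 + δ / 6) ≤ 3 * (1 - δ) * S.toReal := by nlinarith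
  exact le_of_mul_le_mul_left h5 (by linarith)

/-- Every finite cylinder covering of a convex body has relative area at least `1/3 + ε`. -/
theorem cylinder_bound : ∃ ε : ℝ, 0 < ε ∧ ∀ (K : Set E3), IsCompact K → Convex ℝ K →
    (interior K).Nonempty →
    ∀ (m : ℕ) (u : Fin m → E3) (B : ∀ i, Set ↥((ℝ ∙ u i)ᗮ)), (∀ i, ‖u i‖ = 1) →
      (∀ i, MeasurableSet (B i)) →
      K ⊆ ⋃ i, (ℝ ∙ u i)ᗮ.orthogonalProjectionOnto ⁻¹' B i →
      ENNReal.ofReal (1 / 3 + ε) ≤ ∑ i, volume (B i) / volume (shadow (u i) K) := by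
  obtain ⟨ε, hε, hnb⟩ := normal_bound
  refine ⟨ε, hε, fun K hK hcv hint m u B hu hB hcov => ?_⟩
  obtain ⟨L, t, hin, hout⟩ := exists_normal hK hcv hint
  set v : Fin m → E3 := fun i => ‖L (u i)‖⁻¹ • L (u i) with hv
  have hLne : ∀ i, L (u i) ≠ 0 := fun i => by
    rw [Ne, L.map_eq_zero_iff]; exact norm_ne_zero_iff.1 (by rw [hu]; exact one_ne_zero)
  have hvn : ∀ i, ‖v i‖ = 1 := fun i => norm_smul_inv_norm (hLne i)
  set π : ∀ w : E3, E3 →L[ℝ] ↥((ℝ ∙ w)ᗮ) := fun w => (ℝ ∙ w)ᗮ.orthogonalProjectionOnto with hπ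
  have hker : ∀ i, π (v i) (L (u i)) = 0 := fun i => by
    refine Submodule.orthogonalProjectionOnto_orthogonal_apply_eq_zero ?_
    exact Submodule.mem_span_singleton.2 ⟨‖L (u i)‖, by
      simp only [hv]; rw [smul_smul, mul_inv_cancel₀ (norm_ne_zero_iff.2 (hLne i)), one_smul]⟩
  have hkey : ∀ i x, π (v i) (L x) = π (v i) (L (π (u i) x : E3)) := by
    intro i x
    have h : x - (π (u i) x : E3) ∈ (ℝ ∙ u i) := by
      have := Submodule.sub_starProjection_mem_orthogonal (K := (ℝ ∙ u i)ᗮ) x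
      rw [Submodule.orthogonal_orthogonal] at this
      exact this
    obtain ⟨a, ha⟩ := Submodule.mem_span_singleton.1 h
    have h2 : x = (π (u i) x : E3) + a • u i := by rw [ha]; abel
    conv_lhs => rw [h2, map_add, map_add, map_smul, map_smul, hker, smul_zero, add_zero]
  have hginj : ∀ i, Function.Injective
      ((π (v i)).comp (L.toContinuousLinearMap.comp ((ℝ ∙ u i)ᗮ).subtypeL)) := by
    intro i
    rw [injective_iff_map_eq_zero]
    intro y hy
    change π (v i) (L (y : E3)) = 0 at hy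
    rw [hπ, Submodule.orthogonalProjectionOnto_eq_zero_iff, Submodule.orthogonal_orthogonal] at hy
    obtain ⟨a, ha⟩ := Submodule.mem_span_singleton.1 hy
    have hy2 : (y : E3) = (a * ‖L (u i)‖⁻¹) • u i := L.injective (by
      rw [map_smul, ← ha]; simp only [hv, smul_smul])
    have hperp := Submodule.mem_orthogonal_singleton_iff_inner_right.1 y.2
    rw [hy2, inner_smul_right, real_inner_self_eq_norm_sq, hu, one_pow, mul_one] at hperp
    rw [hperp, zero_smul] at hy2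
    exact Subtype.ext hy2
  have hdim : ∀ w : E3, ‖w‖ = 1 → finrank ℝ ↥((ℝ ∙ w)ᗮ) = 2 := fun w hw => by
    have hw0 : w ≠ 0 := norm_ne_zero_iff.1 (by rw [hw]; exact one_ne_zero)
    haveI : Fact (finrank ℝ E3 = 2 + 1) := ⟨finrank_euclideanSpace_fin⟩
    exact Submodule.finrank_orthogonal_span_singleton (n := 2) hw0
  let g : ∀ i, ↥((ℝ ∙ u i)ᗮ) ≃L[ℝ] ↥((ℝ ∙ v i)ᗮ) := fun i =>
    (LinearMap.linearEquivOfInjective _ (hginj i)
      (by rw [hdim _ (hu i), hdim _ (hvn i)])).toContinuousLinearEquiv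
  have hg : ∀ i x, π (v i) (L x + t) = g i (π (u i) x) + π (v i) t := fun i x => by
    rw [map_add, hkey]
    rfl
  set B' : ∀ i, Set ↥((ℝ ∙ v i)ᗮ) := fun i => (fun y => y + π (v i) t) '' (g i '' B i) with hB'
  have hB'm : ∀ i, MeasurableSet (B' i) := fun i => by
    have h1 : MeasurableSet (g i '' B i) := by
      rw [show ⇑(g i) = ⇑(g i).toHomeomorph.toMeasurableEquiv from rfl]
      exact (g i).toHomeomorph.toMeasurableEquiv.measurableSet_image.2 (hB i)
    simp only [hB', image_add_right]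
    exact measurable_add_const _ h1
  have hcov' : (fun y => L y + t) '' K ⊆ ⋃ i, π (v i) ⁻¹' B' i := by
    rintro _ ⟨x, hx, rfl⟩
    obtain ⟨i, hi⟩ := mem_iUnion.1 (hcov hx)
    exact mem_iUnion.2 ⟨i, g i (π (u i) x), mem_image_of_mem _ hi, (hg i x).symm⟩
  have h := hnb ((fun y => L y + t) '' K)
    (hK.image (by fun_prop))
    (by
      have h1 := (hcv.linear_image L.toLinearEquiv.toLinearMap).translate t
      rwa [image_image, show (fun y => t + L.toLinearEquiv.toLinearMap y) = (fun y => L y + t) from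
        funext fun y => add_comm _ _] at h1)
    hin hout m v B' hvn hB'm hcov'
  refine h.trans (le_of_eq (Finset.sum_congr rfl fun i _ => ?_))
  obtain ⟨c, hc0, hct, hc⟩ :=
    exists_scale (volume : Measure ↥((ℝ ∙ u i)ᗮ)) (volume : Measure ↥((ℝ ∙ v i)ᗮ)) (g i)
  have hsh : shadow (v i) ((fun y => L y + t) '' K)
      = (fun y => y + π (v i) t) '' (g i '' shadow (u i) K) := by
    rw [shadow, shadow, image_image, image_image, image_image]
    exact image_congr fun x _ => hg i x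
  rw [hsh]
  simp only [hB', image_add_right, measure_preimage_add_right, hc]
  exact ENNReal.mul_div_mul_left _ _ hc0 hct

end

end Vale.Agent.P243
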