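import Mathlib

/-!
# P243: points of a convex set that are nearly sharp

`Sh K M d Γ` is the set of points `x` of `K` having two bounded vectors `a, b`, with `(a, b) ∈ Γ`,
that are both `d`-nearly outer normals of `K` at `x`. If `Γ` keeps `a, b` uniformly independent,
this set has volume `O(d²)` inside a fixed box.
-/

namespace Vale.Agent.P243

open MeasureTheory Set
open scoped ENNReal

noncomputable section

/-- The coordinate space, a plane times a line. -/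
abbrev Q : Type := (ℝ × ℝ) × ℝ

/-- The scalar product in coordinates. -/
def dot (a x : Q) : ℝ := a.1.1 * x.1.1 + a.1.2 * x.1.2 + a.2 * x.2

lemma continuous_dot : Continuous fun p : Q × Q => dot p.1 p.2 := by unfold dot; fun_prop

/-- The box of half-width `R`. -/
def box (R : ℝ) : Set Q := (Icc (-R) R ×ˢ Icc (-R) R) ×ˢ Icc (-R) R

lemma mem_box {R : ℝ} {x : Q} : x ∈ box R ↔ |x.1.1| ≤ R ∧ |x.1.2| ≤ R ∧ |x.2| ≤ R := by
  simp only [box, mem_prod, mem_Icc, abs_le]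
  tauto

lemma isCompact_box (R : ℝ) : IsCompact (box R) :=
  (isCompact_Icc.prod isCompact_Icc).prod isCompact_Icc

/-- Nearly sharp points. -/
def Sh (K : Set Q) (M d : ℝ) (Γ : Set (Q × Q)) : Set Q :=
  {x | x ∈ K ∧ ∃ a b, a ∈ box M ∧ b ∈ box M ∧ (a, b) ∈ Γ ∧
    ∀ y ∈ K, dot a (y - x) ≤ d ∧ dot b (y - x) ≤ d}

lemma isCompact_Sh {K : Set Q} (hK : IsCompact K) (M d : ℝ) {Γ : Set (Q × Q)} (hΓ : IsClosed Γ) :
    IsCompact (Sh K M d Γ) := by
  have h2 : IsClosed {p : Q × Q × Q | p.2 ∈ Γ ∧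
      ∀ y ∈ K, dot p.2.1 (y - p.1) ≤ d ∧ dot p.2.2 (y - p.1) ≤ d} := by
    simp only [Set.ofPred_and, Set.ofPred_forall]
    refine (hΓ.preimage continuous_snd).inter
      (isClosed_iInter fun y => isClosed_iInter fun _ => ?_)
    exact (isClosed_le (continuous_dot.comp
        (by fun_prop : Continuous fun p : Q × Q × Q => (p.2.1, y - p.1))) continuous_const).inter
      (isClosed_le (continuous_dot.comp
        (by fun_prop : Continuous fun p : Q × Q × Q => (p.2.2, y - p.1))) continuous_const)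
  have h3 := ((hK.prod ((isCompact_box M).prod (isCompact_box M))).inter_right h2).image
    continuous_fst
  convert h3 using 1
  ext x
  constructor
  · rintro ⟨hx, a, b, ha, hb, hg, hy⟩
    exact ⟨(x, a, b), ⟨⟨hx, ha, hb⟩, hg, hy⟩, rfl⟩
  · rintro ⟨⟨x', a, b⟩, ⟨⟨hx, ha, hb⟩, hg, hy⟩, rfl⟩
    exact ⟨hx, a, b, ha, hb, hg, hy⟩

lemma abs_bilin {a₁ a₂ b₁ b₂ A₁ A₂ : ℝ} (h₁ : |a₁| ≤ A₁) (h₂ : |a₂| ≤ A₁) (h₃ : |b₁| ≤ A₂)
    (h₄ : |b₂| ≤ A₂) : |a₁ * b₁ - a₂ * b₂| ≤ 2 * (A₁ * A₂) := by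
  have hA : 0 ≤ A₁ := (abs_nonneg _).trans h₁
  refine (abs_sub _ _).trans ?_
  rw [abs_mul, abs_mul, two_mul]
  exact add_le_add (mul_le_mul h₁ h₃ (abs_nonneg _) hA) (mul_le_mul h₂ h₄ (abs_nonneg _) hA)

/-- A grid vector near the sum of two independent vectors is a combination of them with
coefficients near one. -/
lemma grid_comb {M c η : ℝ} (hc : 0 < c) (hηM : η * M = c / 8) {a₁ a₂ b₁ b₂ : ℝ}
    (ha₁ : |a₁| ≤ M) (ha₂ : |a₂| ≤ M) (hb₁ : |b₁| ≤ M) (hb₂ : |b₂| ≤ M)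
    (hdet : c ≤ |a₁ * b₂ - a₂ * b₁|) {g₁ g₂ : ℝ} (he₁ : |g₁ - (a₁ + b₁)| ≤ η)
    (he₂ : |g₂ - (a₂ + b₂)| ≤ η) :
    ∃ α β : ℝ, |α - 1| ≤ 1 / 4 ∧ |β - 1| ≤ 1 / 4 ∧
      g₁ = α * a₁ + β * b₁ ∧ g₂ = α * a₂ + β * b₂ := by
  set D := a₁ * b₂ - a₂ * b₁ with hD
  have hD0 : D ≠ 0 := abs_pos.1 (lt_of_lt_of_le hc hdet)
  refine ⟨1 + ((g₁ - (a₁ + b₁)) * b₂ - (g₂ - (a₂ + b₂)) * b₁) / D,
    1 + (a₁ * (g₂ - (a₂ + b₂)) - a₂ * (g₁ - (a₁ + b₁))) / D, ?_, ?_, ?_, ?_⟩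
  · rw [add_sub_cancel_left, abs_div, div_le_iff₀ (abs_pos.2 hD0)]
    linarith [abs_bilin he₁ he₂ hb₂ hb₁]
  · rw [add_sub_cancel_left, abs_div, div_le_iff₀ (abs_pos.2 hD0)]
    linarith [abs_bilin ha₁ ha₂ he₂ he₁]
  · field_simp; rw [hD]; ring
  · field_simp; rw [hD]; ring

/-- Two points that are nearly extreme for pairs of vectors giving the same grid vector are close. -/
lemma close_of_grid {M c d A B A' B' α β α' β' D₁ D₂ a₁ a₂ b₁ b₂ : ℝ} (hc : 0 < c) (hd : 0 ≤ d)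
    (ha₁ : |a₁| ≤ M) (ha₂ : |a₂| ≤ M) (hb₁ : |b₁| ≤ M) (hb₂ : |b₂| ≤ M)
    (hdet : c ≤ |a₁ * b₂ - a₂ * b₁|) (hα : |α - 1| ≤ 1 / 4) (hβ : |β - 1| ≤ 1 / 4)
    (hα' : |α' - 1| ≤ 1 / 4) (hβ' : |β' - 1| ≤ 1 / 4)
    (hA : A = a₁ * D₁ + a₂ * D₂) (hB : B = b₁ * D₁ + b₂ * D₂)
    (u₁ : A ≤ d) (u₂ : B ≤ d) (v₁ : A' ≤ d) (v₂ : B' ≤ d)
    (hg : α * A + β * B = -(α' * A' + β' * B')) :
    |D₁| ≤ 10 * M / c * d ∧ |D₂| ≤ 10 * M / c * d := by
  rw [abs_le] at hα hβ hα' hβ'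
  have hlow : -(5 / 2 * d) ≤ α * A + β * B := by
    rw [hg, neg_le_neg_iff]
    nlinarith [mul_le_mul_of_nonneg_left v₁ (by linarith : (0:ℝ) ≤ α'),
      mul_le_mul_of_nonneg_left v₂ (by linarith : (0:ℝ) ≤ β')]
  have hA' : |A| ≤ 5 * d := abs_le.2 ⟨by
    nlinarith [mul_le_mul_of_nonneg_left u₂ (by linarith : (0:ℝ) ≤ β)], by linarith⟩
  have hB' : |B| ≤ 5 * d := abs_le.2 ⟨by
    nlinarith [mul_le_mul_of_nonneg_left u₁ (by linarith : (0:ℝ) ≤ α)], by linarith⟩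
  set D := a₁ * b₂ - a₂ * b₁ with hD
  have key : ∀ v : ℝ, |v * D| ≤ 2 * (5 * d * M) → |v| ≤ 10 * M / c * d := by
    intro v hv
    rw [abs_mul] at hv
    rw [div_mul_eq_mul_div, le_div_iff₀ hc]
    nlinarith [abs_nonneg v]
  constructor
  · apply key
    rw [show D₁ * D = A * b₂ - B * a₂ by rw [hA, hB, hD]; ring]
    exact abs_bilin hA' hB' hb₂ ha₂
  · apply key
    rw [show D₂ * D = B * a₁ - A * b₁ by rw [hA, hB, hD]; ring]
    exact abs_bilin hB' hA' ha₁ hb₁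

/-- In the plane, the nearly sharp points are covered by boundedly many squares of size `O(d)`. -/
lemma planar (M c : ℝ) (hM : 0 < M) (hc : 0 < c) :
    ∃ C : ℝ, 0 ≤ C ∧ ∀ (d : ℝ), 0 ≤ d → ∀ S : Set (ℝ × ℝ),
      (∀ x ∈ S, ∃ a₁ a₂ b₁ b₂ : ℝ, |a₁| ≤ M ∧ |a₂| ≤ M ∧ |b₁| ≤ M ∧ |b₂| ≤ M ∧
        c ≤ |a₁ * b₂ - a₂ * b₁| ∧
        ∀ y ∈ S, a₁ * (y.1 - x.1) + a₂ * (y.2 - x.2) ≤ d ∧
          b₁ * (y.1 - x.1) + b₂ * (y.2 - x.2) ≤ d) →
      volume S ≤ ENNReal.ofReal (C * d ^ 2) := by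
  classical
  set η := c / (8 * M) with hη
  have hη0 : 0 < η := by positivity
  set m : ℤ := ⌈2 * M / η⌉ + 1 with hm
  set J : Finset (ℤ × ℤ) := Finset.Icc (-m) m ×ˢ Finset.Icc (-m) m with hJ
  set r := 10 * M / c with hr
  refine ⟨J.card * (2 * r) ^ 2, by positivity, fun d hd S hS => ?_⟩
  choose! a₁ a₂ b₁ b₂ ha₁ ha₂ hb₁ hb₂ hdet hsup using hS
  set lab : ℝ × ℝ → ℤ × ℤ := fun x => (⌊(a₁ x + b₁ x) / η⌋, ⌊(a₂ x + b₂ x) / η⌋) with hlab
  have hlabJ : ∀ x ∈ S, lab x ∈ J := by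
    intro x hx
    have hb : ∀ v : ℝ, |v| ≤ 2 * M → -m ≤ ⌊v / η⌋ ∧ ⌊v / η⌋ ≤ m := by
      intro v hv
      rw [abs_le] at hv
      have hceil := Int.le_ceil (2 * M / η)
      constructor
      · rw [Int.le_floor, hm]
        push_cast
        have : -(2 * M / η) ≤ v / η := by
          rw [← neg_div]; exact div_le_div_of_nonneg_right hv.1 hη0.le
        linarith
      · refine (Int.floor_le_ceil _).trans ((Int.ceil_mono ?_).trans (le_add_of_nonneg_right one_pos.le))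
        exact div_le_div_of_nonneg_right hv.2 hη0.le
    have h1 := hb (a₁ x + b₁ x) ((abs_add_le _ _).trans (by linarith [ha₁ x hx, hb₁ x hx]))
    have h2 := hb (a₂ x + b₂ x) ((abs_add_le _ _).trans (by linarith [ha₂ x hx, hb₂ x hx]))
    simp [hJ, hlab, h1, h2]
  have hηM : η * M = c / 8 := by rw [hη]; field_simp
  have he : ∀ v : ℝ, |η * ⌊v / η⌋ - v| ≤ η := by
    intro v
    have h1 := Int.floor_le (v / η)
    have h2 := Int.lt_floor_add_one (v / η)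
    rw [le_div_iff₀ hη0] at h1
    rw [div_lt_iff₀ hη0] at h2
    rw [abs_le]; constructor <;> linarith
  have hdiam : ∀ x ∈ S, ∀ y ∈ S, lab x = lab y →
      |y.1 - x.1| ≤ r * d ∧ |y.2 - x.2| ≤ r * d := by
    intro x hx y hy hxy
    obtain ⟨α, β, hα, hβ, g1, g2⟩ := grid_comb hc hηM (ha₁ x hx) (ha₂ x hx) (hb₁ x hx) (hb₂ x hx)
      (hdet x hx) (he (a₁ x + b₁ x)) (he (a₂ x + b₂ x))
    obtain ⟨α', β', hα', hβ', g1', g2'⟩ := grid_comb hc hηM (ha₁ y hy) (ha₂ y hy) (hb₁ y hy)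
      (hb₂ y hy) (hdet y hy) (he (a₁ y + b₁ y)) (he (a₂ y + b₂ y))
    have e1 : ⌊(a₁ x + b₁ x) / η⌋ = ⌊(a₁ y + b₁ y) / η⌋ := congrArg Prod.fst hxy
    have e2 : ⌊(a₂ x + b₂ x) / η⌋ = ⌊(a₂ y + b₂ y) / η⌋ := congrArg Prod.snd hxy
    rw [e1] at g1
    rw [e2] at g2
    obtain ⟨u1, u2⟩ := hsup x hx y hy
    obtain ⟨v1, v2⟩ := hsup y hy x hx
    exact close_of_grid hc hd (ha₁ x hx) (ha₂ x hx) (hb₁ x hx) (hb₂ x hx) (hdet x hx) hα hβ hα' hβ'
      rfl rfl u1 u2 v1 v2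
      (by linear_combination (y.1 - x.1) * (g1' - g1) + (y.2 - x.2) * (g2' - g2))
  -- centres
  set ctr : ℤ × ℤ → ℝ × ℝ := fun j => if h : ∃ x ∈ S, lab x = j then h.choose else 0 with hctr
  have hcov : S ⊆ ⋃ j ∈ J, Icc ((ctr j).1 - r * d) ((ctr j).1 + r * d) ×ˢ
      Icc ((ctr j).2 - r * d) ((ctr j).2 + r * d) := by
    intro y hy
    refine mem_iUnion₂.2 ⟨lab y, hlabJ y hy, ?_⟩
    have h : ∃ x ∈ S, lab x = lab y := ⟨y, hy, rfl⟩
    obtain ⟨hx, hl⟩ := h.choose_spec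
    have := hdiam _ hx y hy hl
    simp only [hctr, dif_pos h, mem_prod, mem_Icc]
    rw [abs_le, abs_le] at this
    exact ⟨⟨by linarith, by linarith⟩, by linarith, by linarith⟩
  refine (measure_mono hcov).trans ((measure_biUnion_finset_le _ _).trans ?_)
  have : ∀ j ∈ J, volume (Icc ((ctr j).1 - r * d) ((ctr j).1 + r * d) ×ˢ
      Icc ((ctr j).2 - r * d) ((ctr j).2 + r * d)) = ENNReal.ofReal ((2 * r) ^ 2 * d ^ 2) := by
    intro j _
    rw [Measure.volume_eq_prod, Measure.prod_prod, Real.volume_Icc, Real.volume_Icc,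
      ← ENNReal.ofReal_mul (by ring_nf; positivity)]
    ring_nf
  rw [Finset.sum_congr rfl this, Finset.sum_const, nsmul_eq_mul, ← ENNReal.ofReal_natCast,
    ← ENNReal.ofReal_mul (by positivity)]
  exact ENNReal.ofReal_le_ofReal (le_of_eq (by ring))

/-- The minor in the first two coordinates. -/
def minor (p : Q × Q) : ℝ := p.1.1.1 * p.2.1.2 - p.1.1.2 * p.2.1.1

lemma isClosed_minor (c : ℝ) : IsClosed {p : Q × Q | c ≤ |minor p|} :=
  isClosed_le continuous_const (by unfold minor; fun_prop)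

lemma volume_Sh_minor (R M c : ℝ) (hR : 0 ≤ R) (hM : 0 < M) (hc : 0 < c) :
    ∃ C : ℝ, 0 ≤ C ∧ ∀ (K : Set Q) (d : ℝ), IsCompact K → K ⊆ box R → 0 ≤ d →
      volume (Sh K M d {p | c ≤ |minor p|}) ≤ ENNReal.ofReal (C * d ^ 2) := by
  obtain ⟨C, hC, hpl⟩ := planar M c hM hc
  refine ⟨C * (2 * R), by positivity, fun K d hK hKR hd => ?_⟩
  set S := Sh K M d {p | c ≤ |minor p|} with hS
  have hmeas : MeasurableSet S := (isCompact_Sh hK M d (isClosed_minor c)).measurableSet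
  rw [show (volume : Measure Q) = (volume : Measure (ℝ × ℝ)).prod (volume : Measure ℝ) from rfl,
    Measure.prod_apply_symm hmeas]
  calc ∫⁻ t, volume ((fun y => (y, t)) ⁻¹' S)
      ≤ ∫⁻ t, (Icc (-R) R).indicator (fun _ => ENNReal.ofReal (C * d ^ 2)) t := by
        refine lintegral_mono fun t => ?_
        by_cases ht : t ∈ Icc (-R) R
        · rw [indicator_of_mem ht]
          refine hpl d hd _ ?_
          rintro x ⟨-, a, b, ha, hb, hg, hy⟩
          rw [mem_box] at ha hb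
          refine ⟨a.1.1, a.1.2, b.1.1, b.1.2, ha.1, ha.2.1, hb.1, hb.2.1, hg, ?_⟩
          intro y hyS
          have h := hy (y, t) hyS.1
          simpa [dot] using h
        · rw [indicator_of_notMem ht]
          have : (fun y => (y, t)) ⁻¹' S = ∅ := eq_empty_iff_forall_notMem.2 fun y hy =>
            ht (hKR hy.1).2
          simp [this]
    _ = ENNReal.ofReal (C * d ^ 2) * volume (Icc (-R) R) := lintegral_indicator_const measurableSet_Icc _
    _ = ENNReal.ofReal (C * (2 * R) * d ^ 2) := by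
        rw [Real.volume_Icc, ← ENNReal.ofReal_mul (by positivity)]
        ring_nf

/-- Cyclic permutation of the coordinates. -/
def rot (x : Q) : Q := ((x.1.2, x.2), x.1.1)

lemma dot_rot (a x : Q) : dot (rot a) (rot x) = dot a x := by simp [dot, rot]; ring

lemma measurePreserving_rot : MeasurePreserving rot := by
  have h1 : MeasurePreserving (Prod.swap : ℝ × ℝ × ℝ → (ℝ × ℝ) × ℝ) :=
    Measure.measurePreserving_swap
  have h2 : MeasurePreserving (MeasurableEquiv.prodAssoc : Q ≃ᵐ ℝ × ℝ × ℝ) :=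
    measurePreserving_prodAssoc volume volume volume
  exact h1.comp h2

/-- The Gram determinant of a pair. -/
def gram (p : Q × Q) : ℝ := dot p.1 p.1 * dot p.2 p.2 - dot p.1 p.2 ^ 2

lemma gram_eq (a b : Q) : gram (a, b) =
    minor (a, b) ^ 2 + minor (rot a, rot b) ^ 2 + minor (rot (rot a), rot (rot b)) ^ 2 := by
  simp [gram, dot, minor, rot]; ring

lemma isClosed_gram (c : ℝ) : IsClosed {p : Q × Q | c ≤ gram p} :=
  isClosed_le continuous_const (by unfold gram dot; fun_prop)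

lemma rot_box {M : ℝ} {a : Q} (ha : a ∈ box M) : rot a ∈ box M := by
  rw [mem_box] at ha ⊢; exact ⟨ha.2.1, ha.2.2, ha.1⟩

lemma rot_sub (x y : Q) : rot (x - y) = rot x - rot y := rfl

lemma volume_Sh_gram (R M c : ℝ) (hR : 0 ≤ R) (hM : 0 < M) (hc : 0 < c) :
    ∃ C : ℝ, 0 ≤ C ∧ ∀ (K : Set Q) (d : ℝ), IsCompact K → K ⊆ box R → 0 ≤ d →
      volume (Sh K M d {p | c ^ 2 ≤ gram p}) ≤ ENNReal.ofReal (C * d ^ 2) := by
  obtain ⟨C, hC, hmin⟩ := volume_Sh_minor R M (c / 2) hR hM (by positivity)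
  refine ⟨3 * C, by positivity, fun K d hK hKR hd => ?_⟩
  set Γ := {p : Q × Q | c / 2 ≤ |minor p|} with hΓ
  have hcont : Continuous rot := by unfold rot; fun_prop
  have hK1 : IsCompact (rot '' K) := hK.image hcont
  have hK2 : IsCompact (rot '' (rot '' K)) := hK1.image hcont
  have hR1 : rot '' K ⊆ box R := by rintro _ ⟨x, hx, rfl⟩; exact rot_box (hKR hx)
  have hR2 : rot '' (rot '' K) ⊆ box R := by rintro _ ⟨x, hx, rfl⟩; exact rot_box (hR1 hx)
  have hsub : Sh K M d {p | c ^ 2 ≤ gram p} ⊆ Sh K M d Γ ∪ (rot ⁻¹' Sh (rot '' K) M d Γ ∪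
      (rot ∘ rot) ⁻¹' Sh (rot '' (rot '' K)) M d Γ) := by
    rintro x ⟨hx, a, b, ha, hb, hg, hy⟩
    simp only [mem_ofPred_eq, gram_eq] at hg
    by_cases h0 : c / 2 ≤ |minor (a, b)|
    · exact Or.inl ⟨hx, a, b, ha, hb, h0, hy⟩
    refine Or.inr ?_
    by_cases h1 : c / 2 ≤ |minor (rot a, rot b)|
    · refine Or.inl ⟨mem_image_of_mem _ hx, rot a, rot b, rot_box ha, rot_box hb, h1, ?_⟩
      rintro _ ⟨y, hyK, rfl⟩
      rw [← rot_sub, dot_rot, dot_rot]; exact hy y hyK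
    refine Or.inr ⟨mem_image_of_mem _ (mem_image_of_mem _ hx), rot (rot a), rot (rot b),
      rot_box (rot_box ha), rot_box (rot_box hb), ?_, ?_⟩
    · by_contra h2
      simp only [hΓ, mem_ofPred_eq, not_le] at h0 h1 h2 ⊢
      nlinarith [sq_abs (minor (a, b)), sq_abs (minor (rot a, rot b)),
        sq_abs (minor (rot (rot a), rot (rot b))), abs_nonneg (minor (a, b)),
        abs_nonneg (minor (rot a, rot b)), abs_nonneg (minor (rot (rot a), rot (rot b)))]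
    · rintro _ ⟨_, ⟨y, hyK, rfl⟩, rfl⟩
      simp only [Function.comp_apply, ← rot_sub, dot_rot]; exact hy y hyK
  refine (measure_mono hsub).trans ((measure_union_le _ _).trans
    ((add_le_add le_rfl (measure_union_le _ _)).trans ?_))
  rw [measurePreserving_rot.measure_preimage
      (isCompact_Sh hK1 M d (isClosed_minor _)).measurableSet.nullMeasurableSet,
    (measurePreserving_rot.comp measurePreserving_rot).measure_preimage
      (isCompact_Sh hK2 M d (isClosed_minor _)).measurableSet.nullMeasurableSet]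
  refine (add_le_add (hmin K d hK hKR hd)
    (add_le_add (hmin _ d hK1 hR1 hd) (hmin _ d hK2 hR2 hd))).trans (le_of_eq ?_)
  rw [← ENNReal.ofReal_add (by positivity) (by positivity),
    ← ENNReal.ofReal_add (by positivity) (by positivity)]
  ring_nf

end

end Vale.Agent.P243
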