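import Vale.Agent.P243.Vertical

/-!
# P243: coordinates, normalisation and transport of coverings
-/

namespace Vale.Agent.P243

open MeasureTheory Set Metric Module
open scoped ENNReal RealInnerProductSpace

noncomputable section

/-- Euclidean three-space. -/
abbrev E3 : Type := EuclideanSpace ℝ (Fin 3)

/-- Coordinates in an orthonormal basis. -/
def coordE (b : OrthonormalBasis (Fin 3) ℝ E3) : E3 →ₗ[ℝ] Q where
  toFun x := ((⟪b 0, x⟫, ⟪b 1, x⟫), ⟪b 2, x⟫)
  map_add' x y := by simp [inner_add_right]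
  map_smul' r x := by simp [inner_smul_right]

lemma dot_coordE (b : OrthonormalBasis (Fin 3) ℝ E3) (x y : E3) :
    dot (coordE b x) (coordE b y) = ⟪x, y⟫ := by
  rw [← b.sum_inner_mul_inner x y, Fin.sum_univ_three]
  simp [coordE, dot, real_inner_comm]

lemma coordE_injective (b : OrthonormalBasis (Fin 3) ℝ E3) : Function.Injective (coordE b) := by
  rw [injective_iff_map_eq_zero]
  intro x hx
  have h := dot_coordE b x x
  rw [hx, real_inner_self_eq_norm_sq] at h
  simpa [dot] using h.symm

/-- The coordinates as an equivalence. -/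
def coordEquiv (b : OrthonormalBasis (Fin 3) ℝ E3) : E3 ≃L[ℝ] Q :=
  (LinearMap.linearEquivOfInjective (coordE b) (coordE_injective b)
    (by simp)).toContinuousLinearEquiv

lemma coordEquiv_apply (b : OrthonormalBasis (Fin 3) ℝ E3) (x : E3) :
    coordEquiv b x = coordE b x := rfl

/-- A linear equivalence multiplies Haar measures by a constant. -/
lemma exists_scale {E F : Type*} [NormedAddCommGroup E] [NormedSpace ℝ E] [MeasurableSpace E]
    [BorelSpace E] [FiniteDimensional ℝ E] [NormedAddCommGroup F] [NormedSpace ℝ F]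
    [MeasurableSpace F] [BorelSpace F] [FiniteDimensional ℝ F] (μ : Measure E) [μ.IsAddHaarMeasure]
    (ν : Measure F) [ν.IsAddHaarMeasure] (φ : E ≃L[ℝ] F) :
    ∃ c : ℝ≥0∞, c ≠ 0 ∧ c ≠ ∞ ∧ ∀ S, ν (φ '' S) = c * μ S := by
  haveI : (Measure.map φ.symm ν).IsAddHaarMeasure := φ.symm.isAddHaarMeasure_map ν
  refine ⟨Measure.addHaarScalarFactor (Measure.map φ.symm ν) μ, ?_, ENNReal.coe_ne_top, fun S => ?_⟩
  · exact ENNReal.coe_ne_zero.2 (Measure.addHaarScalarFactor_pos_of_isAddHaarMeasure _ μ).ne'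
  · have h := congrArg (fun m : Measure E => m S)
      (Measure.isAddLeftInvariant_eq_smul (Measure.map φ.symm ν) μ)
    have hmap : Measure.map φ.symm ν S = ν (φ '' S) := by
      rw [show ⇑φ.symm = ⇑φ.symm.toHomeomorph.toMeasurableEquiv from rfl, MeasurableEquiv.map_apply]
      congr 1
      exact (φ.toEquiv.image_eq_preimage_symm S).symm
    simp only [hmap, Measure.smul_apply] at h
    rw [h]
    rfl

/-- The shadow of a set on the plane orthogonal to `u`. -/
abbrev shadow (u : E3) (K : Set E3) : Set ↥((ℝ ∙ u)ᗮ) := (ℝ ∙ u)ᗮ.orthogonalProjectionOnto '' K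

/-- An orthonormal basis with prescribed last vector, and the matching coordinates of the plane. -/
lemma exists_frame {u : E3} (hu : ‖u‖ = 1) :
    ∃ (b : OrthonormalBasis (Fin 3) ℝ E3) (ψ : ↥((ℝ ∙ u)ᗮ) ≃L[ℝ] ℝ × ℝ),
      ∀ x, ψ ((ℝ ∙ u)ᗮ.orthogonalProjectionOnto x) = (coordE b x).1 := by
  have hcard : finrank ℝ E3 = Fintype.card (Fin 3) := by simp
  have hon : Orthonormal ℝ (({2} : Set (Fin 3)).domRestrict fun _ => u) := by
    refine ⟨fun i => hu, fun i j hij => absurd (Subtype.ext ?_) hij⟩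
    rw [mem_singleton_iff.1 i.2, mem_singleton_iff.1 j.2]
  obtain ⟨b, hb⟩ := hon.exists_orthonormalBasis_extension_of_card_eq hcard
  have hb2 : b 2 = u := hb 2 rfl
  have hperp : ∀ i, i ≠ 2 → b i ∈ (ℝ ∙ u)ᗮ := fun i hi => by
    rw [Submodule.mem_orthogonal_singleton_iff_inner_left, ← hb2]
    exact b.orthonormal.2 hi
  let g : ↥((ℝ ∙ u)ᗮ) →ₗ[ℝ] ℝ × ℝ :=
    { toFun := fun y => (⟪b 0, (y : E3)⟫, ⟪b 1, (y : E3)⟫)
      map_add' := fun x y => by simp [inner_add_right]
      map_smul' := fun r x => by simp [inner_smul_right] }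
  have hg : Function.Injective g := by
    rw [injective_iff_map_eq_zero]
    intro y hy
    have h := b.sum_inner_mul_inner (y : E3) y
    have h2 : ⟪b 2, (y : E3)⟫ = 0 := by
      rw [hb2]; exact Submodule.mem_orthogonal_singleton_iff_inner_right.1 y.2
    rw [Fin.sum_univ_three, h2, mul_zero, add_zero,
      show ⟪b 0, (y : E3)⟫ = 0 from congrArg Prod.fst hy,
      show ⟪b 1, (y : E3)⟫ = 0 from congrArg Prod.snd hy, mul_zero, mul_zero, add_zero] at h
    exact Subtype.ext (inner_self_eq_zero.1 h.symm)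
  have hdim : finrank ℝ ↥((ℝ ∙ u)ᗮ) = finrank ℝ (ℝ × ℝ) := by
    have hu0 : u ≠ 0 := norm_ne_zero_iff.1 (by rw [hu]; exact one_ne_zero)
    haveI : Fact (finrank ℝ E3 = 2 + 1) := ⟨finrank_euclideanSpace_fin⟩
    rw [Submodule.finrank_orthogonal_span_singleton (n := 2) hu0]; simp
  refine ⟨b, (LinearMap.linearEquivOfInjective g hg hdim).toContinuousLinearEquiv, fun x => ?_⟩
  have key : ∀ i, i ≠ 2 →
      ⟪b i, (((ℝ ∙ u)ᗮ.orthogonalProjectionOnto x : ↥((ℝ ∙ u)ᗮ)) : E3)⟫ = ⟪b i, x⟫ := fun i hi => by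
    have h := Submodule.starProjection_inner_eq_zero x (b i) (hperp i hi) (K := (ℝ ∙ u)ᗮ)
    rw [inner_sub_left, sub_eq_zero] at h
    rw [real_inner_comm, ← Submodule.starProjection_apply, ← h, real_inner_comm]
  change (⟪b 0, _⟫, ⟪b 1, _⟫) = _
  rw [key 0 (by decide), key 1 (by decide)]
  rfl

/-- Every convex body has an affine image between the unit ball and the ball of radius fifty. -/
lemma exists_normal {K : Set E3} (hK : IsCompact K) (hcv : Convex ℝ K)
    (hint : (interior K).Nonempty) :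
    ∃ (L : E3 ≃L[ℝ] E3) (t : E3), (∀ x, ‖x‖ ≤ 1 → x ∈ (fun y => L y + t) '' K) ∧
      (fun y => L y + t) '' K ⊆ closedBall 0 50 := by
  classical
  set e : Basis (Fin 3) ℝ E3 := (EuclideanSpace.basisFun (Fin 3) ℝ).toBasis with he
  set S : Set (E3 × (Fin 3 → E3)) := K ×ˢ (univ.pi fun _ => K) with hS
  have hSc : IsCompact S := hK.prod (isCompact_univ_pi fun _ => hK)
  set F : E3 × (Fin 3 → E3) → ℝ := fun v => |e.det (fun i => v.2 i - v.1)| with hF
  have hFc : Continuous F := by
    have : Continuous fun w : Fin 3 → E3 => e.det w := by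
      simp only [Basis.det_apply]
      refine Continuous.matrix_det ?_
      refine continuous_matrix fun i j => ?_
      simp only [Basis.toMatrix_apply]
      exact ((LinearMap.continuous_of_finiteDimensional (e.coord i))).comp (continuous_apply j)
    exact (this.comp (by fun_prop)).abs
  obtain ⟨x₀, hx₀⟩ := hint
  obtain ⟨r, hr, hball⟩ := isOpen_iff.1 isOpen_interior x₀ hx₀
  have hK0 : x₀ ∈ K := interior_subset hx₀
  obtain ⟨v, hv, hmax⟩ := hSc.exists_isMaxOn ⟨(x₀, fun _ => x₀), hK0, fun _ _ => hK0⟩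
    hFc.continuousOn
  obtain ⟨v₀, vs⟩ := v
  obtain ⟨hv0, hvs⟩ := hv
  set w : Fin 3 → E3 := fun i => vs i - v₀ with hw
  have hdet : e.det w ≠ 0 := by
    intro h0
    have hmem : ((x₀, fun i => x₀ + (r / 2) • e i) : E3 × (Fin 3 → E3)) ∈ S := by
      refine ⟨hK0, fun i _ => interior_subset (hball ?_)⟩
      have hn : ‖e i‖ = 1 := by
        rw [he, OrthonormalBasis.coe_toBasis]; exact (EuclideanSpace.basisFun (Fin 3) ℝ).orthonormal.1 i
      rw [mem_ball, dist_eq_norm, add_sub_cancel_left, norm_smul, hn, mul_one, Real.norm_eq_abs,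
        abs_of_pos (by positivity)]
      linarith
    have h : F _ ≤ F _ := hmax hmem
    simp only [hF, add_sub_cancel_left] at h
    rw [show (fun i => vs i - v₀) = w from rfl, h0, abs_zero] at h
    have h2 : e.det (fun i => (r / 2) • e i) = (r / 2) ^ 3 := by
      rw [show (fun i => (r / 2) • e i) = fun i => (fun _ => r / 2) i • e i from rfl,
        AlternatingMap.map_smul_univ, e.det_self]
      simp [div_pow]
    rw [h2] at h
    exact absurd (abs_nonpos_iff.1 h) (by positivity)
  have hli : LinearIndependent ℝ w ∧ Submodule.span ℝ (range w) = ⊤ :=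
    (e.is_basis_iff_det).2 (isUnit_iff_ne_zero.2 hdet)
  set wb : Basis (Fin 3) ℝ E3 := Basis.mk hli.1 hli.2.ge with hwb
  have hwb' : ∀ i, wb i = w i := fun i => Basis.mk_apply _ _ i
  have hbound : ∀ x ∈ K, ∀ j, |wb.repr (x - v₀) j| ≤ 1 := by
    intro x hx j
    have hexp : x - v₀ = ∑ i, wb.repr (x - v₀) i • w i := by
      simp only [← hwb']; exact (wb.sum_repr _).symm
    have hupd : e.det (Function.update w j (x - v₀)) = wb.repr (x - v₀) j * e.det w := by
      rw [hexp, AlternatingMap.map_update_sum, Finset.sum_eq_single j]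
      · rw [AlternatingMap.map_update_smul, Function.update_eq_self, smul_eq_mul, ← hexp]
      · intro i _ hij
        rw [AlternatingMap.map_update_smul, AlternatingMap.map_update_self _ _ hij.symm, smul_zero]
      · simp
    have hmem : ((v₀, Function.update vs j x) : E3 × (Fin 3 → E3)) ∈ S := by
      refine ⟨hv0, fun i _ => ?_⟩
      by_cases h : i = j
      · subst h; simpa using hx
      · simpa [h] using hvs i (mem_univ i)
    have h : F _ ≤ F _ := hmax hmem
    have heq : (fun i => Function.update vs j x i - v₀) = Function.update w j (x - v₀) := by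
      funext i
      by_cases h : i = j
      · subst h; simp
      · simp [h, hw]
    simp only [hF, heq, hupd, abs_mul] at h
    rw [show (fun i => vs i - v₀) = w from rfl] at h
    exact le_of_mul_le_mul_right (by rwa [one_mul]) (abs_pos.2 hdet)
  set L₀ : E3 ≃ₗ[ℝ] E3 := wb.repr.trans e.repr.symm with hL₀
  have hL₀c : ∀ y j, (L₀ y) j = wb.repr y j := by
    intro y j
    have h1 : e.repr (L₀ y) = wb.repr y := by simp [hL₀]
    rw [← h1, he, OrthonormalBasis.coe_toBasis_repr_apply, EuclideanSpace.basisFun_repr]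
  set c : E3 := WithLp.toLp 2 (fun _ => (1 / 4 : ℝ)) with hc
  set L : E3 ≃L[ℝ] E3 :=
    (L₀.trans (LinearEquiv.smulOfNeZero ℝ E3 (20 : ℝ) (by norm_num))).toContinuousLinearEquiv with hL
  have hT : ∀ y, L y + (-(20 : ℝ) • (L₀ v₀ + c)) = (20 : ℝ) • (L₀ (y - v₀) - c) := by
    intro y
    simp only [hL, LinearEquiv.coe_toContinuousLinearEquiv', LinearEquiv.trans_apply,
      LinearEquiv.smulOfNeZero_apply, map_sub]
    module
  refine ⟨L, -(20 : ℝ) • (L₀ v₀ + c), fun z hz => ?_, ?_⟩
  · have hzi : ∀ i, |z i| ≤ 1 := fun i => (PiLp.norm_apply_le z i).trans hz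
    set a : Fin 3 → ℝ := fun i => 1 / 4 + z i / 20 with ha
    have ha0 : ∀ i, 0 ≤ a i := fun i => by
      have := abs_le.1 (hzi i); simp only [ha]; linarith
    have hasum : ∑ i, a i ≤ 1 := by
      simp only [ha, Fin.sum_univ_three]
      linarith [(abs_le.1 (hzi 0)).2, (abs_le.1 (hzi 1)).2, (abs_le.1 (hzi 2)).2]
    refine ⟨v₀ + ∑ i, a i • w i, ?_, ?_⟩
    · have hcomb : v₀ + ∑ i, a i • w i = (1 - ∑ i, a i) • v₀ + ∑ i, a i • vs i := by
        simp only [hw, smul_sub, Finset.sum_sub_distrib, ← Finset.sum_smul, sub_smul, one_smul]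
        abel
      rw [hcomb]
      have h := hcv.sum_mem (t := (Finset.univ : Finset (Option (Fin 3))))
        (w := fun o => o.elim (1 - ∑ i, a i) a) (z := fun o => o.elim v₀ vs) ?_ ?_ ?_
      · simpa [Fintype.sum_option] using h
      · intro o _
        cases o with
        | none => simpa using hasum
        | some i => simpa using ha0 i
      · simp [Fintype.sum_option]
      · intro o _
        cases o with
        | none => simpa using hv0
        | some i => simpa using hvs i (mem_univ i)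
    · show L _ + _ = z
      rw [hT, add_sub_cancel_left]
      ext j
      rw [PiLp.smul_apply, PiLp.sub_apply, hL₀c, hc]
      simp only [← hwb', wb.repr_sum_self, ha, smul_eq_mul]
      ring
  · rintro _ ⟨y, hy, rfl⟩
    rw [mem_closedBall_zero_iff]
    show ‖L y + _‖ ≤ 50
    rw [hT, EuclideanSpace.norm_eq, Real.sqrt_le_left (by norm_num),
      Fin.sum_univ_three]
    have key : ∀ j, ‖((20 : ℝ) • (L₀ (y - v₀) - c)) j‖ ^ 2 ≤ 25 ^ 2 := by
      intro j
      refine pow_le_pow_left₀ (norm_nonneg _) ?_ 2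
      rw [PiLp.smul_apply, PiLp.sub_apply, hL₀c, hc, smul_eq_mul, Real.norm_eq_abs, abs_mul]
      have := abs_le.1 (hbound y hy j)
      rw [abs_of_pos (by norm_num : (0:ℝ) < 20)]
      have : |wb.repr (y - v₀) j - 1 / 4| ≤ 5 / 4 := by rw [abs_le]; constructor <;> linarith
      linarith
    linarith [key 0, key 1, key 2]

end

end Vale.Agent.P243
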