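import Vale.Agent.P243.Line

/-!
# P243: after deleting the nearly sharp points every chord in a fixed direction is shorter

For a convex body between the unit ball and the box of half-width `R`, the part of every vertical
chord outside `Sh` is at most `(1 - δ)` times the bound `3 vol K / area (shadow)`.
-/

namespace Vale.Agent.P243

open MeasureTheory Set
open scoped ENNReal

noncomputable section

/-- The conclusion at one end of a chord. -/
lemma end_sharp {K : Set Q} (hK : IsCompact K) (hcv : Convex ℝ K) {y₀ e z : ℝ × ℝ}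
    {p sz d η τ sg β₁ β₂ B R : ℝ} (hsg : sg = 1 ∨ sg = -1) (hη : 0 < η) (hR : 0 < R)
    (hz : z = y₀ + sz • e)
    (hin : ∀ σ₁ σ₂ σ₃ : ℝ, |σ₁| ≤ 1 / 4 → |σ₂| ≤ 1 / 4 → |σ₃| ≤ 1 / 4 →
      ((z.1 + σ₁, z.2 + σ₂), σ₃) ∈ K)
    (h₁ : ∀ s t, (y₀ + s • e, t) ∈ K → sg * (t - p) - s * β₁ ≤ d)
    (h₂ : ∀ s t, (y₀ + s • e, t) ∈ K → sg * (t - p) - s * β₂ ≤ d)
    (hB₁ : |p + sg * (sz * β₁ + d + η)| ≤ B) (hB₂ : |p + sg * (sz * β₂ + d + η)| ≤ B)
    (hB1 : 1 ≤ 4 * B) (hκ : |β₁ - β₂| = 1 / 2) (he : e.1 ^ 2 + e.2 ^ 2 ≤ R ^ 2)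
    {t : ℝ} (hpt : (y₀, t) ∈ K) (htτ : sg * (p - t) ≤ τ) :
    (y₀, t) ∈ Sh K (4 * B) (d + η + τ) {x | (1 / 2 / R) ^ 2 ≤ gram x} := by
  obtain ⟨a, ha, ha2, hae, haK⟩ := extend hK hcv hsg hη hz hin h₁ hB₁ hB1
  obtain ⟨b, hb, hb2, hbe, hbK⟩ := extend hK hcv hsg hη hz hin h₂ hB₂ hB1
  have hsgsq : sg * sg = 1 := by rcases hsg with h | h <;> rw [h] <;> norm_num
  refine ⟨hpt, a, b, ha, hb, ?_, fun y hy => ?_⟩
  · refine gram_ge hsgsq ha2 hb2 ?_ hR he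
    rw [hae, hbe, show -β₁ - -β₂ = -(β₁ - β₂) by ring, abs_neg, hκ]
  · have key : ∀ c : Q, c.2 = sg → dot c (y - (y₀, p)) ≤ d + η →
        dot c (y - (y₀, t)) ≤ d + η + τ := by
      intro c hc h
      have : dot c (y - (y₀, t)) = dot c (y - (y₀, p)) + sg * (p - t) := by
        simp [dot, hc]; ring
      linarith
    exact ⟨key a ha2 (haK y hy), key b hb2 (hbK y hy)⟩

/-- A good point of the shadow, used to calibrate the tent. -/
lemma exists_good {K : Set Q} (hK : IsCompact K) (hcv : Convex ℝ K) {R δ : ℝ} (hR : 1 ≤ R)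
    (hout : K ⊆ box R) {y₀ : ℝ × ℝ} {q p : ℝ} (hqp : q < p)
    (hq : (y₀, q) ∈ K) (hp : (y₀, p) ∈ K) (hδ : 0 < δ)
    (hnear : 3 * (1 - δ) * volume.real K < (p - q) * volume.real (Prod.fst '' K))
    {D : Set (ℝ × ℝ)} (hD : MeasurableSet D) (hDv : volume D = ENNReal.ofReal (1 / 25)) :
    ∃ z ∈ D, volume (fib K z) <
      ENNReal.ofReal (p - q) * volume (params K y₀ z) + ENNReal.ofReal (240 * R ^ 3 * δ) := by
  by_contra hcon
  push Not at hcon
  have hR0 : 0 < R := by linarith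
  have h := cone_surplus hK hcv hqp.le hq hp D hD _ hcon
  have hV := hK.measure_lt_top (μ := (volume : Measure Q))
  have h2 := ENNReal.toReal_mono hV.ne h
  have hA := ((hK.image continuous_fst : IsCompact (Prod.fst '' K))).measure_lt_top (μ := volume)
  rw [hDv, ENNReal.toReal_add (ENNReal.mul_ne_top ENNReal.ofReal_ne_top
      (ENNReal.mul_ne_top ENNReal.ofReal_ne_top hA.ne))
      (ENNReal.mul_ne_top ENNReal.ofReal_ne_top ENNReal.ofReal_ne_top),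
    ENNReal.toReal_mul, ENNReal.toReal_mul, ENNReal.toReal_mul,
    ENNReal.toReal_ofReal (sub_pos.2 hqp).le, ENNReal.toReal_ofReal (by norm_num),
    ENNReal.toReal_ofReal (by positivity), ENNReal.toReal_ofReal (by norm_num)] at h2
  have hVle : volume.real K ≤ 8 * R ^ 3 := by
    refine (measureReal_mono hout (isCompact_box R).measure_lt_top.ne).trans (le_of_eq ?_)
    rw [box, Measure.real, Measure.volume_eq_prod, Measure.prod_prod, Measure.volume_eq_prod,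
      Measure.prod_prod, Real.volume_Icc]
    rw [sub_neg_eq_add, ← two_mul, ← ENNReal.ofReal_mul (by positivity),
      ← ENNReal.ofReal_mul (by positivity), ENNReal.toReal_ofReal (by positivity)]
    ring
  simp only [Measure.real] at *
  nlinarith [mul_le_mul_of_nonneg_left hVle hδ.le, pow_pos hR0 3]

/-- The calibrating point: a ray along which the body is almost a tent. -/
lemma calibrate {K : Set Q} (hK : IsCompact K) (hcv : Convex ℝ K) {R δ : ℝ} (hR : 1 ≤ R)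
    (hball : ∀ x, dot x x ≤ 1 → x ∈ K) (hout : K ⊆ box R) {y₀ : ℝ × ℝ} {q p : ℝ}
    (hqp : q < p) (hqK : (y₀, q) ∈ K) (hpK : (y₀, p) ∈ K) (hδ : 0 < δ)
    (hsmall : (240 * R ^ 3 + 2 * R) * δ * (20 * R) ≤ 1) (hL1 : 1 ≤ p - q) (hL2 : p - q ≤ 2 * R)
    (hnear : 3 * (1 - δ) * volume.real K < (p - q) * volume.real (Prod.fst '' K)) :
    ∃ (w' z : ℝ × ℝ) (tw sz : ℝ), (w', tw) ∈ K ∧ z = y₀ + sz • (w' - y₀) ∧
      1 / (10 * R) ≤ sz ∧ sz ≤ 1 - 1 / (5 * R) ∧ 1 / 5 ≤ |(w' - y₀).1| ∧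
      (∀ σ₁ σ₂ σ₃ : ℝ, |σ₁| ≤ 1 / 4 → |σ₂| ≤ 1 / 4 → |σ₃| ≤ 1 / 4 →
        ((z.1 + σ₁, z.2 + σ₂), σ₃) ∈ K) ∧
      ∀ t, (y₀ + sz • (w' - y₀), t) ∈ K →
        1 * (t - p) - sz * (1 * (tw - p)) ≤ (240 * R ^ 3 + 2 * R) * δ ∧
        (-1) * (t - q) - sz * ((-1) * (tw - q)) ≤ (240 * R ^ 3 + 2 * R) * δ := by
  have hR0 : 0 < R := by linarith
  set C₁ := 240 * R ^ 3 + 2 * R with hC₁
  have hC₁0 : 0 < C₁ := by positivity
  set L := p - q with hL
  -- a good point near the origin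
  set cz : ℝ := if 0 ≤ y₀.1 then -(3 / 10) else 3 / 10 with hcz
  set D : Set (ℝ × ℝ) := Icc (cz - 1 / 10) (cz + 1 / 10) ×ˢ Icc (-(1 / 10)) (1 / 10) with hDdef
  have hDv : volume D = ENNReal.ofReal (1 / 25) := by
    rw [hDdef, Measure.volume_eq_prod, Measure.prod_prod, Real.volume_Icc, Real.volume_Icc,
      ← ENNReal.ofReal_mul (by linarith)]
    ring_nf
  obtain ⟨z, hzD, hzgood⟩ := exists_good hK hcv hR hout hqp hqK hpK hδ hnear
    (measurableSet_Icc.prod measurableSet_Icc) hDv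
  obtain ⟨⟨hz1, hz1'⟩, hz2, hz2'⟩ := hzD
  have hzfar : 1 / 5 ≤ |z.1 - y₀.1| := by
    rw [hcz] at hz1 hz1'
    split_ifs at hz1 hz1' with h
    · rw [abs_of_nonpos (by linarith)]; linarith
    · rw [abs_of_nonneg (by linarith [not_le.1 h])]; linarith [not_le.1 h]
  have hcz' : |cz| ≤ 3 / 10 := by rw [hcz]; split_ifs <;> norm_num
  rw [abs_le] at hcz'
  have hin : ∀ σ₁ σ₂ σ₃ : ℝ, |σ₁| ≤ 1 / 4 → |σ₂| ≤ 1 / 4 → |σ₃| ≤ 1 / 4 →
      ((z.1 + σ₁, z.2 + σ₂), σ₃) ∈ K := by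
    intro σ₁ σ₂ σ₃ h1 h2 h3
    rw [abs_le] at h1 h2 h3
    apply hball
    have k1 : (z.1 + σ₁) ^ 2 ≤ (13 / 20) ^ 2 := sq_le_sq' (by linarith) (by linarith)
    have k2 : (z.2 + σ₂) ^ 2 ≤ (7 / 20) ^ 2 := sq_le_sq' (by linarith) (by linarith)
    have k3 : σ₃ ^ 2 ≤ (1 / 4) ^ 2 := sq_le_sq' (by linarith) (by linarith)
    simp only [dot]; nlinarith
  have hzfib : ∀ σ : ℝ, |σ| ≤ 1 / 4 → σ ∈ fib K z := fun σ hσ => by
    have := hin 0 0 σ (by norm_num) (by norm_num) hσ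
    rwa [add_zero, add_zero] at this
  obtain ⟨bz, tz, hbt, hzf⟩ := fib_eq_Icc hK hcv ⟨0, hzfib 0 (by norm_num)⟩
  have hbtlen : 1 / 2 ≤ tz - bz := by
    have h1 := hzfib (-(1 / 4)) (by norm_num)
    have h2 := hzfib (1 / 4) (by norm_num)
    rw [hzf, mem_Icc] at h1 h2
    linarith
  set ε := 240 * R ^ 3 * δ with hε
  set g := (volume (params K y₀ z)).toReal with hg
  have hGfin : volume (params K y₀ z) ≠ ∞ := by
    refine (lt_of_le_of_lt (measure_mono (fun r hr => hr.1)) ?_).ne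
    exact isCompact_Icc.measure_lt_top
  have hFg : tz - bz ≤ L * g + ε := by
    rw [hzf, Real.volume_Icc, ← ENNReal.ofReal_toReal hGfin,
      ← ENNReal.ofReal_mul (by linarith), ← ENNReal.ofReal_add (by positivity) (by positivity)]
      at hzgood
    exact ((ENNReal.ofReal_lt_ofReal_iff (by positivity)).1 hzgood).le
  have hε1 : C₁ * δ ≤ 1 / 20 := by
    nlinarith [mul_pos hC₁0 hδ]
  have hεle : ε + 2 * R * δ = C₁ * δ := by rw [hε, hC₁]; ring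
  obtain ⟨r, hr, hrg⟩ : ∃ r ∈ params K y₀ z, g - δ < r := by
    by_contra hcon
    push Not at hcon
    have hsub : params K y₀ z ⊆ Icc 0 (g - δ) := fun r hr => ⟨hr.1.1, hcon r hr⟩
    have h := measure_mono hsub (μ := volume)
    rw [Real.volume_Icc, sub_zero, ← ENNReal.ofReal_toReal hGfin] at h
    rcases le_or_gt (g - δ) 0 with h' | h'
    · have h2 : L * g ≤ L * δ := mul_le_mul_of_nonneg_left (by linarith) (by linarith)
      nlinarith
    · have := (ENNReal.ofReal_le_ofReal_iff h'.le).1 h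
      linarith
  obtain ⟨⟨hr0, hr1⟩, w, ⟨⟨w', tw⟩, hwK, rfl⟩, hzw⟩ := hr
  simp only at hzw
  set sz := 1 - r with hsz
  have hze : z = y₀ + sz • (w' - y₀) := by
    rw [hzw, hsz, smul_sub, sub_smul, sub_smul, one_smul, one_smul]; abel
  have hLr : tz - bz ≤ r * L + C₁ * δ := by
    have h1 : L * g ≤ L * (r + δ) := mul_le_mul_of_nonneg_left (by linarith) (by linarith)
    have h2 : L * δ ≤ 2 * R * δ := mul_le_mul_of_nonneg_right hL2 hδ.le
    linarith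
  have hrlow : 1 / (5 * R) ≤ r := by
    rw [div_le_iff₀ (by positivity)]
    have h1 : r * L ≤ r * (2 * R) := mul_le_mul_of_nonneg_left hL2 hr0
    linarith
  have he1 : |(w' - y₀).1| ≤ 2 * R := by
    have a1 := abs_le.1 (mem_box.1 (hout hwK)).1
    have b1 := abs_le.1 (mem_box.1 (hout hpK)).1
    simp only [Prod.fst_sub] at *
    rw [abs_le]; constructor <;> linarith
  have hesz : 1 / 5 ≤ sz * |(w' - y₀).1| := by
    have h : z.1 - y₀.1 = sz * (w' - y₀).1 := by rw [hze]; simp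
    rw [h, abs_mul, abs_of_nonneg (by linarith : (0:ℝ) ≤ sz)] at hzfar
    exact hzfar
  have hup := mem_comb hcv hpK hwK hr0 hr1
  have hlo := mem_comb hcv hqK hwK hr0 hr1
  rw [← hzw] at hup hlo
  have hup' : r * p + (1 - r) * tw ∈ Icc bz tz := by rw [← hzf]; exact hup
  have hlo' : r * q + (1 - r) * tw ∈ Icc bz tz := by rw [← hzf]; exact hlo
  refine ⟨w', z, tw, sz, hwK, hze, ?_, ?_,
    hesz.trans (mul_le_of_le_one_left (abs_nonneg _) (by linarith)), hin, ?_⟩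
  · rw [div_le_iff₀ (by positivity)]
    have h1 : sz * |(w' - y₀).1| ≤ sz * (2 * R) := mul_le_mul_of_nonneg_left he1 (by linarith)
    linarith
  · linarith
  · intro t ht
    rw [← hze] at ht
    have htI : t ∈ Icc bz tz := by rw [← hzf]; exact ht
    rw [mem_Icc] at htI hup' hlo'
    rw [hsz]
    rw [hL] at hLr
    constructor <;> linarith

/-- One of the two ends of an almost maximal chord has a second near supporting line. -/
lemma dichotomy {K : Set Q} (hcv : Convex ℝ K) {y₀ e : ℝ × ℝ} {q p tw d m : ℝ}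
    (hqK : (y₀, q) ∈ K) (hpK : (y₀, p) ∈ K) (hL1 : 1 ≤ p - q) (hd : 0 ≤ d) (hmd : m ≤ d)
    (hmax : ∀ y a b, (y, a) ∈ K → (y, b) ∈ K → b - a < p - q + m) :
    (∀ s t, s < 0 → (y₀ + s • e, t) ∈ K → 1 * (t - p) - s * (1 * (tw - p) + 1 / 2) ≤ d) ∨
    (∀ s t, s < 0 → (y₀ + s • e, t) ∈ K →
      (-1) * (t - q) - s * ((-1) * (tw - q) + 1 / 2) ≤ d) := by
  by_contra hcon
  push Not at hcon
  obtain ⟨⟨s₁, t₁, hs₁, hK₁, h₁⟩, s₂, t₂, hs₂, hK₂, h₂⟩ := hcon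
  rcases le_or_gt s₂ s₁ with hle | hle
  · set ρ := s₁ / s₂ with hρ
    have hρ0 : 0 ≤ ρ := div_nonneg_of_nonpos hs₁.le hs₂.le
    have hρ1 : ρ ≤ 1 := (div_le_one_of_neg hs₂).2 hle
    have hm := mem_comb hcv hK₂ hqK hρ0 hρ1
    have hρs : ρ * s₂ = s₁ := div_mul_cancel₀ _ hs₂.ne
    have hy : ρ • (y₀ + s₂ • e) + (1 - ρ) • y₀ = y₀ + s₁ • e := by
      rw [smul_add, smul_smul, hρs, sub_smul, one_smul]; abel
    rw [hy] at hm
    have hm' := hmax _ _ _ hm hK₁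
    have h₂' := mul_le_mul_of_nonneg_left h₂.le hρ0
    have hid : ρ * ((-1) * (t₂ - q) - s₂ * ((-1) * (tw - q) + 1 / 2))
        = (-1) * (ρ * t₂ + (1 - ρ) * q - q) - s₁ * ((-1) * (tw - q) + 1 / 2) := by
      rw [← hρs]; ring
    rw [hid] at h₂'
    linarith [mul_nonneg hρ0 hd, mul_nonneg (neg_nonneg.2 hs₁.le) (sub_nonneg.2 hL1)]
  · set ρ := s₂ / s₁ with hρ
    have hρ0 : 0 ≤ ρ := div_nonneg_of_nonpos hs₂.le hs₁.le
    have hρ1 : ρ ≤ 1 := (div_le_one_of_neg hs₁).2 hle.le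
    have hm := mem_comb hcv hK₁ hpK hρ0 hρ1
    have hρs : ρ * s₁ = s₂ := div_mul_cancel₀ _ hs₁.ne
    have hy : ρ • (y₀ + s₁ • e) + (1 - ρ) • y₀ = y₀ + s₂ • e := by
      rw [smul_add, smul_smul, hρs, sub_smul, one_smul]; abel
    rw [hy] at hm
    have hm' := hmax _ _ _ hK₂ hm
    have h₁' := mul_le_mul_of_nonneg_left h₁.le hρ0
    have hid : ρ * (1 * (t₁ - p) - s₁ * (1 * (tw - p) + 1 / 2))
        = 1 * (ρ * t₁ + (1 - ρ) * p - p) - s₂ * (1 * (tw - p) + 1 / 2) := by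
      rw [← hρs]; ring
    rw [hid] at h₁'
    linarith [mul_nonneg hρ0 hd, mul_nonneg (neg_nonneg.2 hs₂.le) (sub_nonneg.2 hL1)]

/-- A bound on the auxiliary height used in extending a line to a plane. -/
lemma height_bound {R C δ sz sg p' β : ℝ} (hC : 0 ≤ C) (hδ : 0 ≤ δ) (hδ1 : δ ≤ 1) (hsz0 : 0 ≤ sz)
    (hsz1 : sz ≤ 1) (h1 : |sg| = 1) (h2 : |p'| ≤ R) (h3 : |β| ≤ 2 * R + 1) :
    |p' + sg * (sz * β + C * δ + δ)| ≤ 5 * R + C + 2 := by
  have hR : 0 ≤ R := (abs_nonneg _).trans h2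
  refine (abs_add_le _ _).trans ?_
  rw [abs_mul, h1, one_mul]
  have h4 : |sz * β| ≤ 2 * R + 1 := by
    rw [abs_mul, abs_of_nonneg hsz0]
    exact (mul_le_of_le_one_left (abs_nonneg _) hsz1).trans h3
  have h5 : |sz * β + C * δ + δ| ≤ |sz * β| + (C * δ + δ) := by
    rw [add_assoc]
    refine (abs_add_le _ _).trans ?_
    rw [abs_of_nonneg (by positivity : 0 ≤ C * δ + δ)]
  have : C * δ ≤ C := mul_le_of_le_one_right hC hδ1
  linarith

/-- The three consequences of an almost maximal chord length. -/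
lemma almost_max {A V L R δ : ℝ} (hA : 0 < A) (hV : 0 ≤ V) (hδ : 0 < δ) (hδ4 : δ ≤ 1 / 20)
    (hR : 1 ≤ R) (hL2 : L ≤ 2 * R) (h : 3 * (1 - δ) * V < L * A) :
    3 * V / A ≤ 4 * R ∧ ∀ X, X * A ≤ 3 * V → X < L + 4 * R * δ := by
  have h1 := mul_le_mul_of_nonneg_right hL2 hA.le
  have h2 := mul_le_mul_of_nonneg_right hδ4 hV
  refine ⟨?_, fun X hX => ?_⟩
  · rw [div_le_iff₀ hA]
    linarith [mul_nonneg (by linarith : (0:ℝ) ≤ R) hA.le]
  · by_contra hc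
    push Not at hc
    have h6 := mul_le_mul_of_nonneg_left hX (by linarith : (0:ℝ) ≤ 1 - δ)
    have h7 : (1 - δ) * X < L := lt_of_mul_lt_mul_right (by linarith : (1 - δ) * X * A < L * A) hA.le
    have h8 := mul_le_mul_of_nonneg_left hc (by linarith : (0:ℝ) ≤ 1 - δ)
    have h9 := mul_le_mul_of_nonneg_left hδ4 (by positivity : (0:ℝ) ≤ 4 * R * δ)
    have h10 := mul_le_mul_of_nonneg_left hL2 hδ.le
    linarith [mul_pos (by linarith : (0:ℝ) < R) hδ]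

/-- Both ends data of a calibrated chord: the deleted piece is nearly sharp. -/
lemma sharp_end {K : Set Q} (hK : IsCompact K) (hcv : Convex ℝ K) {y₀ e z : ℝ × ℝ}
    {q p tw sz d₁ C₂ δ τ R : ℝ} (hfib : fib K y₀ = Icc q p) (hR : 1 ≤ R) (hout : K ⊆ box R)
    (hwK : (y₀ + e, tw) ∈ K) (hze : z = y₀ + sz • e) (hsz0 : 0 < sz) (hsz1 : sz < 1)
    (hin : ∀ σ₁ σ₂ σ₃ : ℝ, |σ₁| ≤ 1 / 4 → |σ₂| ≤ 1 / 4 → |σ₃| ≤ 1 / 4 →
      ((z.1 + σ₁, z.2 + σ₂), σ₃) ∈ K)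
    (he : e.1 ^ 2 + e.2 ^ 2 ≤ (3 * R) ^ 2) (hδ : 0 < δ) (hδ1 : δ ≤ 1) (hC₂ : 0 ≤ C₂)
    (hd₁ : d₁ ≤ C₂ * δ) (hqp : τ ≤ p - q)
    (hr₁ : ∀ s t, (y₀ + s • e, t) ∈ K → 1 * (t - p) - s * (1 * (tw - p)) ≤ d₁)
    (hr₂ : ∀ s t, (y₀ + s • e, t) ∈ K → (-1) * (t - q) - s * ((-1) * (tw - q)) ≤ d₁)
    (hdich : (∀ s t, s < 0 → (y₀ + s • e, t) ∈ K →
        1 * (t - p) - s * (1 * (tw - p) + 1 / 2) ≤ C₂ * δ) ∨
      (∀ s t, s < 0 → (y₀ + s • e, t) ∈ K →
        (-1) * (t - q) - s * ((-1) * (tw - q) + 1 / 2) ≤ C₂ * δ)) :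
    Icc (p - τ) p ⊆ fib (Sh K (4 * (5 * R + C₂ + 2)) (C₂ * δ + δ + τ)
        {x | (1 / 2 / (3 * R)) ^ 2 ≤ gram x}) y₀ ∨
      Icc q (q + τ) ⊆ fib (Sh K (4 * (5 * R + C₂ + 2)) (C₂ * δ + δ + τ)
        {x | (1 / 2 / (3 * R)) ^ 2 ≤ gram x}) y₀ := by
  have hboxt : ∀ t ∈ fib K y₀, |t| ≤ R := fun t ht => (mem_box.1 (hout ht)).2.2
  have htw : |tw| ≤ R := (mem_box.1 (hout hwK)).2.2
  have hend : ∀ sg p' : ℝ, (sg = 1 ∨ sg = -1) → |p'| ≤ R →
      (∀ s t, (y₀ + s • e, t) ∈ K → sg * (t - p') - s * (sg * (tw - p')) ≤ d₁) →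
      (∀ s t, s < 0 → (y₀ + s • e, t) ∈ K →
        sg * (t - p') - s * (sg * (tw - p') + 1 / 2) ≤ C₂ * δ) →
      ∀ t, t ∈ fib K y₀ → sg * (p' - t) ≤ τ →
        (y₀, t) ∈ Sh K (4 * (5 * R + C₂ + 2)) (C₂ * δ + δ + τ)
          {x | (1 / 2 / (3 * R)) ^ 2 ≤ gram x} := by
    intro sg p' hsg hp' hl hl' t ht h1'
    have habs : |sg| = 1 := by rcases hsg with h | h <;> simp [h]
    have h' : |tw - p'| ≤ 2 * R := by
      have := abs_sub tw p'
      linarith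
    refine end_sharp (β₂ := sg * (tw - p') + 1 / 2) hK hcv hsg hδ (by positivity) hze hin
      (fun s t h => (hl s t h).trans hd₁) (fun s t h => ?_)
      (height_bound hC₂ hδ.le hδ1 hsz0.le hsz1.le habs hp' ?_)
      (height_bound hC₂ hδ.le hδ1 hsz0.le hsz1.le habs hp' ?_) (by linarith) (by norm_num) he ht h1'
    · rcases lt_or_ge s 0 with hs | hs
      · exact hl' s t hs h
      · linarith [hl s t h]
    · rw [abs_mul, habs, one_mul]; linarith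
    · refine (abs_add_le _ _).trans ?_
      rw [abs_mul, habs, one_mul]; norm_num; linarith
  rcases hdich with hl | hl
  · refine Or.inl fun t ht => hend 1 p (Or.inl rfl) (hboxt p ?_) hr₁ hl t ?_ (by linarith [ht.1])
    · rw [hfib]; exact ⟨by linarith [ht.1, ht.2], le_rfl⟩
    · rw [hfib]; exact ⟨by linarith [ht.1], ht.2⟩
  · refine Or.inr fun t ht => hend (-1) q (Or.inr rfl) (hboxt q ?_) hr₂ hl t ?_ (by linarith [ht.2])
    · rw [hfib]; exact ⟨le_rfl, by linarith [ht.1, ht.2]⟩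
    · rw [hfib]; exact ⟨ht.1, by linarith [ht.2]⟩

/-- An almost maximal chord has an end piece among the nearly sharp points. -/
lemma chord_end {K : Set Q} (hK : IsCompact K) (hcv : Convex ℝ K) {y₀ : ℝ × ℝ}
    {q p R δ C₁ τ : ℝ} (hR : 1 ≤ R) (hball : ∀ x, dot x x ≤ 1 → x ∈ K) (hout : K ⊆ box R)
    (hfib : fib K y₀ = Icc q p) (hC₁ : C₁ = 240 * R ^ 3 + 2 * R) (hδ : 0 < δ)
    (hsmall : C₁ * δ * (20 * R) ≤ 1) (hL1 : 1 ≤ p - q) (hτ : τ ≤ p - q)
    (hmax : ∀ y a b, (y, a) ∈ K → (y, b) ∈ K → b - a < p - q + 4 * R * δ)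
    (hnear : 3 * (1 - δ) * volume.real K < (p - q) * volume.real (Prod.fst '' K)) :
    Icc (p - τ) p ⊆ fib (Sh K (4 * (5 * R + (C₁ * (100 * R ^ 2) + 4 * R) + 2))
        ((C₁ * (100 * R ^ 2) + 4 * R) * δ + δ + τ) {x | (1 / 2 / (3 * R)) ^ 2 ≤ gram x}) y₀ ∨
      Icc q (q + τ) ⊆ fib (Sh K (4 * (5 * R + (C₁ * (100 * R ^ 2) + 4 * R) + 2))
        ((C₁ * (100 * R ^ 2) + 4 * R) * δ + δ + τ) {x | (1 / 2 / (3 * R)) ^ 2 ≤ gram x}) y₀ := by
  have hR0 : 0 < R := by linarith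
  have hqp : q < p := by linarith
  have hqK : (y₀, q) ∈ K := show q ∈ fib K y₀ by rw [hfib]; exact left_mem_Icc.2 hqp.le
  have hpK : (y₀, p) ∈ K := show p ∈ fib K y₀ by rw [hfib]; exact right_mem_Icc.2 hqp.le
  have hpb := mem_box.1 (hout hpK)
  have hL2 : p - q ≤ 2 * R := by
    linarith [(abs_le.1 hpb.2.2).2, (abs_le.1 (mem_box.1 (hout hqK)).2.2).1]
  obtain ⟨w', z, tw, sz, hwK, hze, hszlow, hszup, he1low, hin, hgap⟩ :=
    calibrate hK hcv hR hball hout hqp hqK hpK hδ (hC₁ ▸ hsmall) hL1 hL2 hnear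
  rw [← hC₁] at hgap
  set e := w' - y₀ with he'
  have hwK' : (y₀ + e, tw) ∈ K := by rwa [he', add_sub_cancel]
  have hsz0 : 0 < sz := lt_of_lt_of_le (by positivity) hszlow
  have hsz1 : sz < 1 := by linarith [(by positivity : (0:ℝ) < 1 / (5 * R))]
  have hwb := mem_box.1 (hout hwK)
  have he1 : |e.1| ≤ 2 * R := by rw [he', Prod.fst_sub]; linarith [abs_sub w'.1 y₀.1, hwb.1, hpb.1]
  have he2 : |e.2| ≤ 2 * R := by rw [he', Prod.snd_sub]; linarith [abs_sub w'.2 y₀.2, hwb.2.1, hpb.2.1]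
  have heR : e.1 ^ 2 + e.2 ^ 2 ≤ (3 * R) ^ 2 := by
    nlinarith [sq_le_sq' (abs_le.1 he1).1 (abs_le.1 he1).2,
      sq_le_sq' (abs_le.1 he2).1 (abs_le.1 he2).2]
  have hC0 : 0 ≤ C₁ := by rw [hC₁]; positivity
  have hC1' : 1 / (1 - sz) ≤ 100 * R ^ 2 := by
    have h1 : 1 / (5 * R) ≤ 1 - sz := by linarith
    rw [div_le_iff₀ (by positivity)] at h1
    rw [div_le_iff₀ (by linarith)]
    nlinarith
  have hC2' : ∀ s t, (y₀ + s • e, t) ∈ K → s / sz ≤ 100 * R ^ 2 := by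
    intro s t h
    have h1 : |s * e.1| ≤ 2 * R := by
      have := (mem_box.1 (hout h)).1
      simp only [Prod.fst_add, Prod.smul_fst, smul_eq_mul] at this
      have := abs_sub (y₀.1 + s * e.1) y₀.1
      rw [add_sub_cancel_left] at this
      linarith [hpb.1]
    rw [abs_mul] at h1
    have h2 : |s| * (1 / 5) ≤ 2 * R := (mul_le_mul_of_nonneg_left he1low (abs_nonneg s)).trans h1
    rw [div_le_iff₀ hsz0]
    rw [div_le_iff₀ (by positivity)] at hszlow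
    have h3 := mul_le_mul_of_nonneg_left hszlow (by positivity : (0:ℝ) ≤ 10 * R)
    linarith [le_abs_self s]
  have hCδ : C₁ * δ * (100 * R ^ 2) ≤ (C₁ * (100 * R ^ 2) + 4 * R) * δ := by
    linarith [mul_pos hR0 hδ]
  have hupper : ∀ u, (y₀, u) ∈ K → 1 * (u - p) ≤ 0 := fun u hu => by
    have : u ∈ Icc q p := by rw [← hfib]; exact hu
    linarith [this.2]
  have hlower : ∀ u, (y₀, u) ∈ K → (-1) * (u - q) ≤ 0 := fun u hu => by
    have : u ∈ Icc q p := by rw [← hfib]; exact hu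
    linarith [this.1]
  have hδ1 : δ ≤ 1 := by
    have h240 : 2 * R ≤ C₁ := by rw [hC₁]; linarith [(by positivity : (0:ℝ) ≤ 240 * R ^ 3)]
    have h4 : (1:ℝ) * δ * 1 ≤ C₁ * δ * (20 * R) := by
      refine mul_le_mul (mul_le_mul_of_nonneg_right ?_ hδ.le) (by linarith) zero_le_one ?_
      · linarith
      · positivity
    linarith
  refine sharp_end hK hcv hfib hR hout hwK' hze hsz0 hsz1 hin heR hδ hδ1 (by positivity) hCδ hτ
    (fun s t h => section_bound hcv hpK hwK' hsz0 hsz1 (by positivity) hC1'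
      (fun t ht => (hgap t ht).1) h (hC2' s t h) hupper)
    (fun s t h => section_bound hcv hqK hwK' hsz0 hsz1 (by positivity) hC1'
      (fun t ht => (hgap t ht).2) h (hC2' s t h) hlower)
    (dichotomy hcv hqK hpK hL1 (by positivity) ?_ hmax)
  linarith [mul_nonneg (mul_nonneg hC0 hδ.le) (by positivity : (0:ℝ) ≤ 100 * R ^ 2)]

/-- The upper end or the lower end of an almost maximal chord is nearly sharp. -/
theorem vertical (R : ℝ) (hR : 1 ≤ R) :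
    ∃ δ₀ > 0, δ₀ ≤ 1 / 4 ∧ ∃ M C c : ℝ, 0 < M ∧ 0 ≤ C ∧ 0 < c ∧ ∀ K : Set Q, IsCompact K →
      Convex ℝ K → (∀ x, dot x x ≤ 1 → x ∈ K) → K ⊆ box R →
      ∀ δ, 0 < δ → δ ≤ δ₀ → ∀ y₀ : ℝ × ℝ,
        volume (fib K y₀ \ fib (Sh K M (C * δ) {x | c ^ 2 ≤ gram x}) y₀) *
            volume (Prod.fst '' K)
          ≤ ENNReal.ofReal (3 * (1 - δ)) * volume K := by
  have hR0 : 0 < R := by linarith
  set C₁ := 240 * R ^ 3 + 2 * R with hC₁
  set C₂ := C₁ * (100 * R ^ 2) + 4 * R with hC₂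
  set M := 4 * (5 * R + C₂ + 2) with hM
  refine ⟨1 / (20 * R * C₁), by positivity, ?_, M, C₂ + 1 + 4 * R, 1 / 2 / (3 * R),
    by positivity, by positivity, by positivity, ?_⟩
  · rw [div_le_div_iff₀ (by positivity) (by norm_num), one_mul]
    nlinarith [pow_pos hR0 3]
  intro K hK hcv hball hout δ hδ hδ₀ y₀
  have hC₁0 : 0 < C₁ := by positivity
  have hC₁R : 1 ≤ C₁ := by nlinarith [pow_pos hR0 3]
  have hsmall : C₁ * δ * (20 * R) ≤ 1 := by
    rw [le_div_iff₀ (by positivity)] at hδ₀; linarith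
  have hδ20 : δ ≤ 1 / 20 := by nlinarith [mul_le_mul hC₁R hR (by norm_num) hC₁0.le]
  set P := Prod.fst '' K with hP
  have hPc : IsCompact P := hK.image continuous_fst
  have hA0 : volume P ≠ ∞ := hPc.measure_lt_top.ne
  have hV0 : volume K ≠ ∞ := hK.measure_lt_top.ne
  rcases (fib K y₀).eq_empty_or_nonempty with he | he
  · simp [he]
  obtain ⟨q, p, hqp, hfib⟩ := fib_eq_Icc hK hcv he
  have hqK : (y₀, q) ∈ K := show q ∈ fib K y₀ by rw [hfib]; exact left_mem_Icc.2 hqp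
  have hpK : (y₀, p) ∈ K := show p ∈ fib K y₀ by rw [hfib]; exact right_mem_Icc.2 hqp
  have hA : 0 ≤ volume.real P := ENNReal.toReal_nonneg
  have hV : 0 ≤ volume.real K := ENNReal.toReal_nonneg
  have hfinal : ∀ L : ℝ, 0 ≤ L → ∀ S : Set ℝ, volume S ≤ ENNReal.ofReal L →
      L * volume.real P ≤ 3 * (1 - δ) * volume.real K →
      volume S * volume P ≤ ENNReal.ofReal (3 * (1 - δ)) * volume K := by
    intro L hL S hS hle
    refine (mul_le_mul' hS le_rfl).trans ?_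
    rw [← ENNReal.ofReal_toReal hA0, ← ENNReal.ofReal_toReal hV0, ← ENNReal.ofReal_mul hL,
      ← ENNReal.ofReal_mul (by linarith)]
    exact ENNReal.ofReal_le_ofReal hle
  by_cases hcase : (p - q) * volume.real P ≤ 3 * (1 - δ) * volume.real K
  · exact hfinal (p - q) (sub_nonneg.2 hqp) _
      ((measure_mono sdiff_subset).trans (by rw [hfib, Real.volume_Icc])) hcase
  push Not at hcase
  have h0 : ∀ σ : ℝ, |σ| ≤ 1 → (((0:ℝ), 0), σ) ∈ K := fun σ hσ => hball _ (by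
    simp [dot]; nlinarith [abs_le.1 hσ])
  have h2A := seg_mul_shadow_le hK hcv (by norm_num : (-1:ℝ) ≤ 1) (h0 _ (by norm_num))
    (h0 _ (by norm_num))
  have hLA := seg_mul_shadow_le hK hcv hqp hqK hpK
  have hApos : 0 < volume.real P := by
    rcases hA.eq_or_lt with h | h
    · rw [← h, mul_zero] at hcase
      linarith [mul_nonneg (by linarith : (0:ℝ) ≤ 3 * (1 - δ)) hV]
    · exact h
  have hL1 : 1 ≤ p - q := by
    by_contra h
    have h1 := mul_lt_mul_of_pos_right (not_le.1 h) hApos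
    have h2 := mul_le_mul_of_nonneg_left h2A (by linarith : (0:ℝ) ≤ 1 - δ)
    have h3 := mul_le_mul_of_nonneg_left hδ20 hA
    linarith [mul_pos hδ hApos]
  have hL2 : p - q ≤ 2 * R := by
    linarith [(abs_le.1 (mem_box.1 (hout hpK)).2.2).2, (abs_le.1 (mem_box.1 (hout hqK)).2.2).1]
  obtain ⟨h3VA, hmx⟩ := almost_max hApos hV hδ hδ20 hR hL2 hcase
  have hmax : ∀ y a b, (y, a) ∈ K → (y, b) ∈ K → b - a < p - q + 4 * R * δ := by
    intro y a b ha hb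
    rcases le_or_gt b a with h | h
    · linarith [mul_pos hR0 hδ]
    · exact hmx _ (seg_mul_shadow_le hK hcv h.le ha hb)
  set τ := δ * (3 * volume.real K / volume.real P) with hτ
  have hτ0 : 0 ≤ τ := by positivity
  have hτle : τ ≤ 4 * R * δ := by
    rw [hτ, mul_comm (4 * R) δ]; exact mul_le_mul_of_nonneg_left h3VA hδ.le
  have hRδ : 20 * R * δ ≤ 1 := by
    have := mul_le_mul_of_nonneg_right hC₁R (by positivity : (0:ℝ) ≤ δ * (20 * R))
    linarith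
  have hτA : τ * volume.real P = 3 * δ * volume.real K := by rw [hτ]; field_simp
  have hend := chord_end hK hcv hR hball hout hfib hC₁ hδ hsmall hL1
    (by linarith : τ ≤ p - q) hmax hcase
  have hsub : ∀ t, (y₀, t) ∈ Sh K M (C₂ * δ + δ + τ) {x | (1 / 2 / (3 * R)) ^ 2 ≤ gram x} →
      t ∈ fib (Sh K M ((C₂ + 1 + 4 * R) * δ) {x | (1 / 2 / (3 * R)) ^ 2 ≤ gram x}) y₀ := by
    rintro t ⟨hx, a, b, ha, hb, hg, hy⟩
    exact ⟨hx, a, b, ha, hb, hg, fun y hyK =>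
      ⟨(hy y hyK).1.trans (by linarith), (hy y hyK).2.trans (by linarith)⟩⟩
  rw [← hC₂, ← hM] at hend
  refine hfinal (p - q - τ) (by linarith) _ ?_ (by linarith)
  rw [hfib]
  rcases hend with h | h
  · refine (measure_mono (t := Icc q (p - τ)) ?_).trans (le_of_eq ?_)
    · rintro t ⟨⟨h1, h2⟩, hnot⟩
      exact ⟨h1, le_of_not_gt fun h3 => hnot (hsub t (h ⟨h3.le, h2⟩))⟩
    · rw [Real.volume_Icc]; ring_nf
  · refine (measure_mono (t := Icc (q + τ) p) ?_).trans (le_of_eq ?_)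
    · rintro t ⟨⟨h1, h2⟩, hnot⟩
      exact ⟨le_of_not_gt fun h3 => hnot (hsub t (h ⟨h1, h3.le⟩)), h2⟩
    · rw [Real.volume_Icc]; ring_nf

end

end Vale.Agent.P243
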